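import Vale.Agent.P141.H841.Lay
import Vale.Agent.P141.H784.BMnode
import Vale.Agent.P141.H677.FlowG

/-!
# P141, line (A), TF: the variation of the averaged slot against the slot `b`

Letters of `H841.Lay` (slot), `H784.NbMass` (masses). `x1` is fixed, `u` is the family of vectors
in `x2` whose Gram matrices are `G`, the slot is averaged over the cells of the `x3`-grid shifted
by `sh`.

* `pt_le` : the half difference at one cell, all layers with the weights `Om`;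
* `near_fine`, `near_coarse` : the cell of `x2` in a plane is near the ancestor of the cell of `Mx`;
* `cnt` : number of cells in a plane with a cut at a coarse scale;
* `one` : one scale and one layer;
* `var_slot` : the number, constant times `e 2^n DK`, any matrices `Mx`, any family `Al` of cells
  closed upwards on which the Gram matrices dominate;
* `var_stop`, `var_stop_top` : the matrices of the flow, stopped tree.
-/

namespace Vale.Agent.P141.H771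

open Finset Matrix
open Vale.Agent.P141.PL (iv ix hs mem_iv card_iv ix_ix)
open Vale.Agent.P141.H420 (Tr Nd tr_symm)
open Vale.Agent.P141.H922 (ck)
open Vale.Agent.P141.H43 (nsq nsq_nonneg)
open Vale.Agent.P141.H841 (Lm Rm Rs Nn om st dev_le Lm_le Nn_nonneg ix_bd ix_of nsq_add_le
  nsq_sub_le)
open Vale.Agent.P141.H784 (ms ms_nonneg gd gd_nonneg nb_mass near DK form_sum Tie)

noncomputable section

variable {ι : Type*} [Fintype ι] [DecidableEq ι]

/-! ### One point -/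

/-- weight of the layer `j` in the half difference of the averaged slot at the cell `m` -/
def Om (sh : ℤ) (k j : ℕ) (m : ℤ) : ℝ :=
  if j ≤ k then 8 * (((k - j : ℕ) : ℝ) + 1) ^ 2 * ((4 : ℝ) ^ (k - j))⁻¹
  else if (2 : ℤ) ^ (j - 1 - k) ∣ m + ix k sh + 1 then 8 * (((j - k : ℕ) : ℝ) + 1) ^ 2 else 0

theorem Om_nonneg (sh : ℤ) (k j : ℕ) (m : ℤ) : 0 ≤ Om sh k j m := by
  unfold Om
  split_ifs <;> positivity

/-- the three points -/
def pe (k : ℕ) (e : Fin 3) : ℤ := ![0, 2 ^ (k - 1), 2 ^ k] e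

theorem pe_bd {k : ℕ} (e : Fin 3) : 0 ≤ pe k e ∧ pe k e ≤ 2 ^ k := by
  have h1 : (0 : ℤ) < 2 ^ k := by positivity
  have h2 : (0 : ℤ) < 2 ^ (k - 1) := by positivity
  have h3 : (2 : ℤ) ^ (k - 1) ≤ 2 ^ k := pow_le_pow_right₀ (by norm_num) (by omega)
  fin_cases e <;> simp [pe] <;> omega

theorem ix_add_mul (k : ℕ) (m x : ℤ) : ix k (2 ^ k * m + x) = m + ix k x := by
  obtain ⟨h1, h2⟩ := ix_bd k x
  exact ix_of (by linarith) (by linarith)

theorem cut_dvd {k i : ℕ} (hki : k ≤ i) {m sh : ℤ}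
    (h : ix i (2 ^ k * m + sh) ≠ ix i (2 ^ k * m + sh + 2 ^ k)) :
    (2 : ℤ) ^ (i - k) ∣ m + ix k sh + 1 := by
  have e1 : ix i (2 ^ k * m + sh) = ix (i - k) (m + ix k sh) := by
    rw [← ix_add_mul k m sh, ix_ix]
    congr 1
    omega
  have e2 : ix i (2 ^ k * m + sh + 2 ^ k) = ix (i - k) (m + ix k sh + 1) := by
    have : 2 ^ k * m + sh + 2 ^ k = 2 ^ k * (m + 1) + sh := by ring
    rw [this, show m + ix k sh + 1 = (m + 1) + ix k sh by ring, ← ix_add_mul k (m + 1) sh, ix_ix]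
    congr 1
    omega
  rw [e1, e2] at h
  generalize m + ix k sh = M at h ⊢
  generalize i - k = d at h ⊢
  by_contra hc
  apply h
  obtain ⟨h1, h2⟩ := ix_bd d (M + 1)
  have h3 : M + 1 ≠ 2 ^ d * ix d (M + 1) := by
    intro h3
    exact hc ⟨_, h3⟩
  exact ix_of (by omega) (by omega)

theorem om_le {n k i : ℕ} (hk : 1 ≤ k) {m sh : ℤ} :
    om sh k i (2 ^ k * m + sh) ≤ Om sh k (i + 1) m ∧
      om sh (k - 1) i (2 ^ k * m + sh) ≤ Om sh k (i + 1) m := by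
  have e1 : st sh k (2 ^ k * m + sh) = 2 ^ k * m + sh := by
    unfold H841.st
    have h1 : ix k (2 ^ k * m + sh - sh) = m := by
      rw [add_sub_cancel_right]
      exact ix_of le_rfl (by have : (0 : ℤ) < 2 ^ k := by positivity
                             linarith)
    rw [h1]
  have ek : (2 : ℤ) ^ k * m = 2 ^ (k - 1) * (2 * m) := by
    have : (2 : ℤ) ^ k = 2 ^ (k - 1) * 2 := by rw [← pow_succ]; congr 1; omega
    rw [this]; ring
  have e2 : st sh (k - 1) (2 ^ k * m + sh) = 2 ^ k * m + sh := by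
    unfold H841.st
    have h1 : ix (k - 1) (2 ^ k * m + sh - sh) = 2 * m := by
      rw [add_sub_cancel_right, ek]
      exact ix_of le_rfl (by have : (0 : ℤ) < 2 ^ (k - 1) := by positivity
                             linarith)
    rw [h1, ek]
  have hO := Om_nonneg sh k (i + 1) m
  constructor
  · unfold H841.om
    rw [e1]
    split_ifs with h1 h2
    · unfold Om
      rw [if_pos (by omega)]
      obtain ⟨d, hd⟩ : ∃ d, k - i = d + 1 := ⟨k - i - 1, by omega⟩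
      rw [hd, show k - (i + 1) = d by omega]
      push_cast
      have h4 : ((4 : ℝ) ^ (d + 1))⁻¹ ≤ ((4 : ℝ) ^ d)⁻¹ :=
        inv_anti₀ (by positivity) (pow_le_pow_right₀ (by norm_num) (by omega))
      exact mul_le_mul_of_nonneg_left h4 (by positivity)
    · exact hO
    · unfold Om
      rw [if_neg (by omega), if_pos (by
        have := cut_dvd (by omega) h2
        rwa [show i + 1 - 1 - k = i - k by omega])]
      have h5 : (0 : ℝ) ≤ ((i + 1 - k : ℕ) : ℝ) := Nat.cast_nonneg _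
      nlinarith
  · unfold H841.om
    rw [e2]
    split_ifs with h1 h2
    · unfold Om
      rw [if_pos (by omega), show k - 1 - i = k - (i + 1) by omega]
      have h5 : (0 : ℝ) ≤ ((k - (i + 1) : ℕ) : ℝ) := Nat.cast_nonneg _
      refine mul_le_mul_of_nonneg_right ?_ (by positivity)
      nlinarith
    · exact hO
    · rcases Nat.lt_or_ge i k with h3 | h3
      · have h4 : i = k - 1 := by omega
        unfold Om
        rw [if_pos (by omega), h4, show k - 1 + 1 - (k - 1) = 1 by omega,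
          show k - (k - 1 + 1) = 0 by omega]
        norm_num
      · unfold Om
        rw [if_neg (by omega), if_pos (by
          rw [show i + 1 - 1 - k = i - k by omega]
          refine cut_dvd h3 fun h => h2 ?_
          have hp : (0 : ℤ) < 2 ^ (k - 1) := by positivity
          have hq : (2 : ℤ) ^ (k - 1) ≤ 2 ^ k := pow_le_pow_right₀ (by norm_num) (by omega)
          have m1 : ix i (2 ^ k * m + sh) ≤ ix i (2 ^ k * m + sh + 2 ^ (k - 1)) :=
            Int.ediv_le_ediv (by positivity) (by linarith)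
          have m2 : ix i (2 ^ k * m + sh + 2 ^ (k - 1)) ≤ ix i (2 ^ k * m + sh + 2 ^ k) :=
            Int.ediv_le_ediv (by positivity) (by linarith)
          omega)]
        have h6 : i + 1 - (k - 1) = (i + 1 - k) + 1 := by omega
        rw [h6]
        push_cast
        exact le_rfl

variable {Mx : ℕ → ℤ → Matrix ι ι ℝ} {o x1 : ℤ} {s : ℕ → ℤ → ℤ → ℝ}

/-- **one point** -/
theorem pt_le (hs1 : ∀ k a b, |s k a b| ≤ 1) {n k : ℕ} (hk : 1 ≤ k) (hkn : k ≤ n) (sh x0 m : ℤ)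
    (w : ι → ℝ) :
    nsq ((Rs Mx o x1 s n sh (k - 1) x0 (2 * m) - Rs Mx o x1 s n sh k x0 m) *ᵥ w) ≤
      10 * ∑ j ∈ Icc 1 n, Om sh k j m * ∑ e : Fin 3,
        Nn Mx o x1 j x0 (2 ^ k * m + sh + pe k e) w := by
  set y : ℤ := 2 ^ k * m + sh with hy
  have ek : (2 : ℤ) ^ k * m = 2 ^ (k - 1) * (2 * m) := by
    have : (2 : ℤ) ^ k = 2 ^ (k - 1) * 2 := by rw [← pow_succ]; congr 1; omega
    rw [this]; ring
  have i1 : ix k (y - sh) = m := by
    rw [hy, add_sub_cancel_right]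
    exact ix_of le_rfl (by have : (0 : ℤ) < 2 ^ k := by positivity
                           linarith)
  have i2 : ix (k - 1) (y - sh) = 2 * m := by
    rw [hy, add_sub_cancel_right, ek]
    exact ix_of le_rfl (by have : (0 : ℤ) < 2 ^ (k - 1) := by positivity
                           linarith)
  have s1 : st sh k y = y := by unfold H841.st; rw [i1]
  have s2 : st sh (k - 1) y = y := by unfold H841.st; rw [i2, ← ek]
  have d1 := dev_le (Mx := Mx) (o := o) (x1 := x1) hs1 n sh hkn x0 y w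
  have d2 := dev_le (Mx := Mx) (o := o) (x1 := x1) hs1 n sh (show k - 1 ≤ n by omega) x0 y w
  rw [s1, i1] at d1
  rw [s2, i2] at d2
  have d3 := Lm_le (Mx := Mx) (o := o) (x1 := x1) hs1 k x0 y w
  have e1 : (Rs Mx o x1 s n sh (k - 1) x0 (2 * m) - Rs Mx o x1 s n sh k x0 m) *ᵥ w =
      ((Rs Mx o x1 s n sh (k - 1) x0 (2 * m) - Rm Mx o x1 s n (k - 1) x0 y) *ᵥ w -
        (Rs Mx o x1 s n sh k x0 m - Rm Mx o x1 s n k x0 y) *ᵥ w) + Lm Mx o x1 s k x0 y *ᵥ w := by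
    have h1 : Rm Mx o x1 s n (k - 1) x0 y = Lm Mx o x1 s k x0 y + Rm Mx o x1 s n k x0 y := by
      unfold H841.Rm
      rw [sum_eq_sum_Ico_succ_bot (by omega : k - 1 < n), show k - 1 + 1 = k by omega]
    rw [← sub_mulVec, ← add_mulVec, h1]
    congr 1
    abel
  rw [e1]
  have f1 := nsq_add_le ((Rs Mx o x1 s n sh (k - 1) x0 (2 * m) -
    Rm Mx o x1 s n (k - 1) x0 y) *ᵥ w - (Rs Mx o x1 s n sh k x0 m - Rm Mx o x1 s n k x0 y) *ᵥ w)
    (Lm Mx o x1 s k x0 y *ᵥ w)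
  have f2 := nsq_sub_le ((Rs Mx o x1 s n sh (k - 1) x0 (2 * m) -
    Rm Mx o x1 s n (k - 1) x0 y) *ᵥ w) ((Rs Mx o x1 s n sh k x0 m - Rm Mx o x1 s n k x0 y) *ᵥ w)
  have g1 : ∑ i ∈ range n, om sh k i y * (Nn Mx o x1 (i + 1) x0 y w +
      Nn Mx o x1 (i + 1) x0 (y + 2 ^ k) w) ≤ ∑ i ∈ range n, Om sh k (i + 1) m *
      (Nn Mx o x1 (i + 1) x0 y w + Nn Mx o x1 (i + 1) x0 (y + 2 ^ k) w) :=
    sum_le_sum fun i _ => mul_le_mul_of_nonneg_right (om_le (n := n) hk).1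
      (add_nonneg (Nn_nonneg _ _ _ _ _ _ _) (Nn_nonneg _ _ _ _ _ _ _))
  have g2 : ∑ i ∈ range n, om sh (k - 1) i y * (Nn Mx o x1 (i + 1) x0 y w +
      Nn Mx o x1 (i + 1) x0 (y + 2 ^ (k - 1)) w) ≤ ∑ i ∈ range n, Om sh k (i + 1) m *
      (Nn Mx o x1 (i + 1) x0 y w + Nn Mx o x1 (i + 1) x0 (y + 2 ^ (k - 1)) w) :=
    sum_le_sum fun i _ => mul_le_mul_of_nonneg_right (om_le (n := n) hk).2
      (add_nonneg (Nn_nonneg _ _ _ _ _ _ _) (Nn_nonneg _ _ _ _ _ _ _))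
  have g3 : Nn Mx o x1 k x0 y w ≤ ∑ i ∈ range n, Om sh k (i + 1) m * Nn Mx o x1 (i + 1) x0 y w := by
    have h1 := single_le_sum (f := fun i => Om sh k (i + 1) m * Nn Mx o x1 (i + 1) x0 y w)
      (s := range n) (fun i _ => mul_nonneg (Om_nonneg _ _ _ _) (Nn_nonneg _ _ _ _ _ _ _))
      (mem_range.2 (show k - 1 < n by omega))
    refine le_trans ?_ h1
    simp only [show k - 1 + 1 = k by omega]
    have h2 : Om sh k k m = 8 := by
      unfold Om
      rw [if_pos le_rfl, Nat.sub_self]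
      norm_num
    rw [h2]
    linarith [Nn_nonneg Mx o x1 k x0 y w]
  have e2 : ∑ j ∈ Icc 1 n, Om sh k j m * ∑ e : Fin 3,
        Nn Mx o x1 j x0 (y + pe k e) w = ∑ i ∈ range n, Om sh k (i + 1) m *
        (Nn Mx o x1 (i + 1) x0 y w + Nn Mx o x1 (i + 1) x0 (y + 2 ^ (k - 1)) w +
          Nn Mx o x1 (i + 1) x0 (y + 2 ^ k) w) := by
    have e3 : ∀ g : ℕ → ℝ, ∑ k ∈ Icc 1 n, g k = ∑ k ∈ range n, g (k + 1) := by
      intro g
      rw [range_eq_Ico, sum_Ico_add' g 0 n 1]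
      rfl
    rw [e3]
    refine sum_congr rfl fun i _ => ?_
    rw [Fin.sum_univ_three]
    simp [pe]
  rw [e2]
  have e4 : ∑ i ∈ range n, Om sh k (i + 1) m *
        (Nn Mx o x1 (i + 1) x0 y w + Nn Mx o x1 (i + 1) x0 (y + 2 ^ (k - 1)) w +
          Nn Mx o x1 (i + 1) x0 (y + 2 ^ k) w) =
      ∑ i ∈ range n, Om sh k (i + 1) m * Nn Mx o x1 (i + 1) x0 y w +
      ∑ i ∈ range n, Om sh k (i + 1) m * Nn Mx o x1 (i + 1) x0 (y + 2 ^ (k - 1)) w +
      ∑ i ∈ range n, Om sh k (i + 1) m * Nn Mx o x1 (i + 1) x0 (y + 2 ^ k) w := by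
    rw [← sum_add_distrib, ← sum_add_distrib]
    exact sum_congr rfl fun i _ => by ring
  have e5 : ∀ z : ℤ, ∑ i ∈ range n, Om sh k (i + 1) m * (Nn Mx o x1 (i + 1) x0 y w +
      Nn Mx o x1 (i + 1) x0 z w) = ∑ i ∈ range n, Om sh k (i + 1) m * Nn Mx o x1 (i + 1) x0 y w +
      ∑ i ∈ range n, Om sh k (i + 1) m * Nn Mx o x1 (i + 1) x0 z w := by
    intro z
    rw [← sum_add_distrib]
    exact sum_congr rfl fun i _ => by ring
  have e6 : ∀ z : ℤ, 0 ≤ ∑ i ∈ range n, Om sh k (i + 1) m * Nn Mx o x1 (i + 1) x0 z w :=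
    fun z => sum_nonneg fun i _ => mul_nonneg (Om_nonneg _ _ _ _) (Nn_nonneg _ _ _ _ _ _ _)
  rw [e5] at g1 g2
  rw [e4]
  have p1 := e6 y
  have p2 := e6 (y + 2 ^ (k - 1))
  have p3 := e6 (y + 2 ^ k)
  linarith

/-! ### Geometry of the planes -/

theorem near_fine {k j J : ℕ} (hjk : j ≤ k) {o x0 x1 x2 m sh z : ℤ} (ho : o = 1 ∨ o = -1)
    (ht : Tie k J (o - 2) x0 x1 x2 (m + ix k sh)) (hz0 : 2 ^ k * m + sh ≤ z)
    (hz1 : z ≤ 2 ^ k * m + sh + 2 ^ k) :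
    |ix k x2 - (ck o x1 z j - ix j x0) / 2 ^ (k - j)| ≤ ((J + 6 : ℕ) : ℤ) := by
  obtain ⟨a1, a2⟩ := ix_bd j x0
  obtain ⟨b1, b2⟩ := ix_bd j x1
  obtain ⟨c1, c2⟩ := ix_bd j z
  obtain ⟨A1, A2⟩ := ix_bd k x0
  obtain ⟨B1, B2⟩ := ix_bd k x1
  obtain ⟨S1, S2⟩ := ix_bd k sh
  unfold H784.Tie at ht
  unfold H922.ck
  rw [abs_le] at ht ⊢
  obtain ⟨t1, t2⟩ := ht
  have hD : (0 : ℤ) < 2 ^ (k - j) := by positivity
  have hP : (0 : ℤ) < 2 ^ j := by positivity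
  have hK : (0 : ℤ) < 2 ^ k := by positivity
  have hPK : (2 : ℤ) ^ j ≤ 2 ^ k := pow_le_pow_right₀ (by norm_num) hjk
  have e : (2 : ℤ) ^ k = 2 ^ j * 2 ^ (k - j) := by rw [← pow_add]; congr 1; omega
  set r : ℤ := o - 2 - ix j x1 - ix j z - ix j x0 with hr
  have q1 : 2 ^ (k - j) * (r / 2 ^ (k - j)) ≤ r := Int.mul_ediv_self_le hD.ne'
  have q2 : r < 2 ^ (k - j) * (r / 2 ^ (k - j)) + 2 ^ (k - j) := by
    have := Int.lt_mul_ediv_self_add (x := r) hD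
    exact this
  set t : ℤ := r / 2 ^ (k - j) with ht'
  have q3 := mul_le_mul_of_nonneg_left q1 hP.le
  have q4 := mul_lt_mul_of_pos_left q2 hP
  have q5 : (2 : ℤ) ^ j * (2 ^ (k - j) * t) = 2 ^ k * t := by rw [e]; ring
  have q6 : (2 : ℤ) ^ j * (2 ^ (k - j) * t + 2 ^ (k - j)) = 2 ^ k * t + 2 ^ k := by rw [e]; ring
  rw [q5] at q3
  rw [q6] at q4
  have q7 : (2 : ℤ) ^ j * r = 2 ^ j * (o - 2) - 2 ^ j * ix j x1 - 2 ^ j * ix j z -
      2 ^ j * ix j x0 := by rw [hr]; ring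
  have t3 := mul_le_mul_of_nonneg_left t1 hK.le
  have t4 := mul_le_mul_of_nonneg_left t2 hK.le
  have t5 : (2 : ℤ) ^ k * (ix k x0 + ix k x1 + ix k x2 + (m + ix k sh) - (o - 2)) =
      2 ^ k * ix k x0 + 2 ^ k * ix k x1 + 2 ^ k * ix k x2 + 2 ^ k * m + 2 ^ k * ix k sh -
        2 ^ k * (o - 2) := by ring
  rw [t5] at t3 t4
  have c0 : -(3 * (2 ^ k - 2 ^ j)) ≤ 2 ^ k * (o - 2) - 2 ^ j * (o - 2) ∧
      2 ^ k * (o - 2) - 2 ^ j * (o - 2) ≤ 0 := by
    rcases ho with rfl | rfl <;> constructor <;> linarith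
  obtain ⟨c3, c4⟩ := c0
  push_cast
  constructor
  · have h1 : (2 : ℤ) ^ k * (-((J : ℤ) + 6) - 1) < 2 ^ k * (ix k x2 - t) := by
      have e2 : (2 : ℤ) ^ k * (-((J : ℤ) + 6) - 1) = -(2 ^ k * (J : ℤ)) - 7 * 2 ^ k := by ring
      have e3 : (2 : ℤ) ^ k * (ix k x2 - t) = 2 ^ k * ix k x2 - 2 ^ k * t := by ring
      rw [e2, e3]
      have e4 : (2 : ℤ) ^ k * -(J : ℤ) = -(2 ^ k * (J : ℤ)) := by ring
      rw [e4] at t3
      linarith
    have := lt_of_mul_lt_mul_left h1 hK.le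
    linarith
  · have h1 : (2 : ℤ) ^ k * (ix k x2 - t) < 2 ^ k * ((J : ℤ) + 6 + 1) := by
      have e2 : (2 : ℤ) ^ k * ((J : ℤ) + 6 + 1) = (2 ^ k * (J : ℤ)) + 7 * 2 ^ k := by ring
      have e3 : (2 : ℤ) ^ k * (ix k x2 - t) = 2 ^ k * ix k x2 - 2 ^ k * t := by ring
      rw [e2, e3]
      linarith
    have := lt_of_mul_lt_mul_left h1 hK.le
    linarith

theorem near_coarse {k j J : ℕ} (hjk : k ≤ j) {o x0 x1 x2 m sh z : ℤ} (ho : o = 1 ∨ o = -1)
    (ht : Tie k J (o - 2) x0 x1 x2 (m + ix k sh)) (hz0 : 2 ^ k * m + sh ≤ z)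
    (hz1 : z ≤ 2 ^ k * m + sh + 2 ^ k) :
    |ix j x2 - (ck o x1 z j - ix j x0)| ≤ ((J + 6 : ℕ) : ℤ) := by
  obtain ⟨a1, a2⟩ := ix_bd j x0
  obtain ⟨b1, b2⟩ := ix_bd j x1
  obtain ⟨c1, c2⟩ := ix_bd j z
  obtain ⟨d1, d2⟩ := ix_bd j x2
  obtain ⟨A1, A2⟩ := ix_bd k x0
  obtain ⟨B1, B2⟩ := ix_bd k x1
  obtain ⟨D1, D2⟩ := ix_bd k x2
  obtain ⟨S1, S2⟩ := ix_bd k sh
  unfold H784.Tie at ht
  unfold H922.ck
  rw [abs_le] at ht ⊢
  obtain ⟨t1, t2⟩ := ht
  have hP : (0 : ℤ) < 2 ^ j := by positivity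
  have hK : (0 : ℤ) < 2 ^ k := by positivity
  have hPK : (2 : ℤ) ^ k ≤ 2 ^ j := pow_le_pow_right₀ (by norm_num) hjk
  have hJ : (2 : ℤ) ^ k * (J : ℤ) ≤ 2 ^ j * (J : ℤ) :=
    mul_le_mul_of_nonneg_right hPK (Int.natCast_nonneg J)
  set r : ℤ := o - 2 - ix j x1 - ix j z - ix j x0 with hr
  have q7 : (2 : ℤ) ^ j * r = 2 ^ j * (o - 2) - 2 ^ j * ix j x1 - 2 ^ j * ix j z -
      2 ^ j * ix j x0 := by rw [hr]; ring
  have t3 := mul_le_mul_of_nonneg_left t1 hK.le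
  have t4 := mul_le_mul_of_nonneg_left t2 hK.le
  have t5 : (2 : ℤ) ^ k * (ix k x0 + ix k x1 + ix k x2 + (m + ix k sh) - (o - 2)) =
      2 ^ k * ix k x0 + 2 ^ k * ix k x1 + 2 ^ k * ix k x2 + 2 ^ k * m + 2 ^ k * ix k sh -
        2 ^ k * (o - 2) := by ring
  rw [t5] at t3 t4
  have e4 : (2 : ℤ) ^ k * -(J : ℤ) = -(2 ^ k * (J : ℤ)) := by ring
  rw [e4] at t3
  have c0 : -(3 * (2 ^ j - 2 ^ k)) ≤ 2 ^ j * (o - 2) - 2 ^ k * (o - 2) ∧
      2 ^ j * (o - 2) - 2 ^ k * (o - 2) ≤ 0 := by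
    rcases ho with rfl | rfl <;> constructor <;> linarith
  obtain ⟨c3, c4⟩ := c0
  push_cast
  constructor
  · have h1 : (2 : ℤ) ^ j * (-((J : ℤ) + 6) - 1) < 2 ^ j * (ix j x2 - r) := by
      have e2 : (2 : ℤ) ^ j * (-((J : ℤ) + 6) - 1) = -(2 ^ j * (J : ℤ)) - 7 * 2 ^ j := by ring
      have e3 : (2 : ℤ) ^ j * (ix j x2 - r) = 2 ^ j * ix j x2 - 2 ^ j * r := by ring
      rw [e2, e3]
      linarith
    have := lt_of_mul_lt_mul_left h1 hP.le
    linarith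
  · have h1 : (2 : ℤ) ^ j * (ix j x2 - r) < 2 ^ j * ((J : ℤ) + 6 + 1) := by
      have e2 : (2 : ℤ) ^ j * ((J : ℤ) + 6 + 1) = (2 ^ j * (J : ℤ)) + 7 * 2 ^ j := by ring
      have e3 : (2 : ℤ) ^ j * (ix j x2 - r) = 2 ^ j * ix j x2 - 2 ^ j * r := by ring
      rw [e2, e3]
      linarith
    have := lt_of_mul_lt_mul_left h1 hP.le
    linarith

/-! ### Counting -/

theorem sum_cells {n k : ℕ} (hk : k ≤ n) (T : ℤ) (g : ℤ → ℝ) :
    ∑ x ∈ iv n T, g x = ∑ a ∈ iv (n - k) T, ∑ x ∈ iv k a, g x := by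
  have h2 : ∀ x ∈ iv n T, ix k x ∈ iv (n - k) T := by
    intro x hx
    rw [mem_iv] at hx ⊢
    rw [ix_ix, Nat.add_sub_cancel' hk]
    exact hx
  rw [← sum_fiberwise_of_maps_to h2]
  refine sum_congr rfl fun p hp => sum_congr ?_ fun _ _ => rfl
  ext x
  rw [mem_filter, mem_iv, mem_iv]
  constructor
  · exact fun h => h.2
  · intro h
    refine ⟨?_, h⟩
    rw [mem_iv, ← h, ix_ix, Nat.add_sub_cancel' hk] at hp
    exact hp

/-- cells in a residue class -/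
theorem card_res {N d : ℕ} (hd : d ≤ N) (T c : ℤ) :
    ((iv N T).filter fun a => (2 : ℤ) ^ d ∣ c - a).card ≤ 2 ^ (N - d) := by
  rw [← card_iv (N - d) T]
  refine card_le_card_of_injOn (fun a => ix d a) (fun a ha => ?_) fun a ha b hb hab => ?_
  · rw [mem_coe, mem_filter] at ha
    rw [mem_coe]
    have h1 := ha.1
    rw [mem_iv] at h1 ⊢
    rw [ix_ix, Nat.add_sub_cancel' hd]
    exact h1
  · rw [mem_coe, mem_filter] at ha hb
    obtain ⟨p, hp⟩ := ha.2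
    obtain ⟨q, hq⟩ := hb.2
    have hab' : ix d a = ix d b := hab
    obtain ⟨a1, a2⟩ := ix_bd d a
    obtain ⟨b1, b2⟩ := ix_bd d b
    rw [hab'] at a1 a2
    have hP : (0 : ℤ) < 2 ^ d := by positivity
    have e1 : a - b = 2 ^ d * (q - p) := by rw [mul_sub, ← hp, ← hq]; ring
    have e2 : (2 : ℤ) ^ d * (q - p) < 2 ^ d * 1 := by rw [← e1]; linarith
    have e3 : (2 : ℤ) ^ d * (-1) < 2 ^ d * (q - p) := by rw [← e1]; linarith
    have e4 := lt_of_mul_lt_mul_left e2 hP.le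
    have e5 := lt_of_mul_lt_mul_left e3 hP.le
    have e6 : q - p = 0 := by omega
    rw [e6, mul_zero] at e1
    linarith

/-- **the cells of a plane whose upper end is a multiple of `2 ^ d`** -/
theorem cnt {W : ℤ → ℝ} (hW0 : ∀ x, 0 ≤ W x) {n k d J : ℕ} {e : ℝ} (he : 0 ≤ e) (hkd : k + d ≤ n)
    (hW : ∀ j, ∑ x ∈ iv k j, W x ≤ e * 2 ^ k) (T A σ : ℤ) (M : Finset ℤ) :
    ∑ x ∈ iv n T, ∑ _m ∈ M.filter (fun m => |ix k x + A + m| ≤ J ∧ (2 : ℤ) ^ d ∣ m + σ), W x ≤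
      (2 * J + 1) * (e * 2 ^ (n - d)) := by
  have h1 : ∀ x ∈ iv n T,
      ∑ _m ∈ M.filter (fun m => |ix k x + A + m| ≤ J ∧ (2 : ℤ) ^ d ∣ m + σ), W x ≤
      ∑ t ∈ Icc (-(J : ℤ)) J, if (2 : ℤ) ^ d ∣ (t - A + σ) - ix k x then W x else 0 := by
    intro x _
    rw [← sum_filter, sum_const, sum_const, nsmul_eq_mul, nsmul_eq_mul]
    refine mul_le_mul_of_nonneg_right ?_ (hW0 x)
    have h2 : (M.filter (fun m => |ix k x + A + m| ≤ J ∧ (2 : ℤ) ^ d ∣ m + σ)).card ≤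
        ((Icc (-(J : ℤ)) J).filter fun t => (2 : ℤ) ^ d ∣ (t - A + σ) - ix k x).card := by
      refine card_le_card_of_injOn (fun m => ix k x + A + m) (fun m hm => ?_)
        fun a _ b _ hab => ?_
      · rw [mem_coe, mem_filter] at hm
        rw [mem_coe, mem_filter, mem_Icc]
        obtain ⟨_, h3, h4⟩ := hm
        rw [abs_le] at h3
        refine ⟨h3, ?_⟩
        have e1 : ix k x + A + m - A + σ - ix k x = m + σ := by ring
        show (2 : ℤ) ^ d ∣ ix k x + A + m - A + σ - ix k x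
        rw [e1]
        exact h4
      · have : ix k x + A + a = ix k x + A + b := hab
        linarith
    exact_mod_cast h2
  refine (sum_le_sum h1).trans ?_
  rw [sum_comm]
  have h3 : ∀ t ∈ Icc (-(J : ℤ)) J,
      ∑ x ∈ iv n T, (if (2 : ℤ) ^ d ∣ (t - A + σ) - ix k x then W x else 0) ≤
        e * 2 ^ (n - d) := by
    intro t _
    rw [sum_cells (show k ≤ n by omega)]
    have h4 : ∀ a ∈ iv (n - k) T,
        ∑ x ∈ iv k a, (if (2 : ℤ) ^ d ∣ (t - A + σ) - ix k x then W x else 0) ≤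
          if (2 : ℤ) ^ d ∣ (t - A + σ) - a then e * 2 ^ k else 0 := by
      intro a _
      have h5 : ∑ x ∈ iv k a, (if (2 : ℤ) ^ d ∣ (t - A + σ) - ix k x then W x else 0) =
          ∑ x ∈ iv k a, (if (2 : ℤ) ^ d ∣ (t - A + σ) - a then W x else 0) := by
        refine sum_congr rfl fun x hx => ?_
        rw [mem_iv.1 hx]
      rw [h5]
      split_ifs
      · exact hW a
      · rw [sum_const_zero]
    refine (sum_le_sum h4).trans ?_
    rw [← sum_filter, sum_const, nsmul_eq_mul]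
    have h6 := card_res (N := n - k) (d := d) (by omega) T (t - A + σ)
    have h7 : ((((iv (n - k) T).filter fun a => (2 : ℤ) ^ d ∣ (t - A + σ) - a).card : ℕ) : ℝ) ≤
        2 ^ (n - k - d) := by exact_mod_cast h6
    refine (mul_le_mul_of_nonneg_right h7 (by positivity)).trans (le_of_eq ?_)
    have e1 : (2 : ℝ) ^ (n - d) = 2 ^ (n - k - d) * 2 ^ k := by rw [← pow_add]; congr 1; omega
    rw [e1]
    ring
  refine (sum_le_sum h3).trans (le_of_eq ?_)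
  rw [sum_const, Int.card_Icc, nsmul_eq_mul]
  have h4 : ((J : ℤ) + 1 - (-(J : ℤ))).toNat = 2 * J + 1 := by omega
  rw [h4]
  push_cast
  ring

/-! ### One scale and one layer -/

/-- the mass of the layers `j` against the cells `r` scales above, window `J` -/
def nbm (Y : ℕ → ℤ → Matrix ι ι ℝ) (K : ℕ → ℤ → Matrix ι ι ℝ) (n : ℕ) (S : ℤ) (J j r : ℕ) : ℝ :=
  2 ^ j * ∑ q ∈ iv (n - j) S, ∑ p ∈ near (n - (j + r)) S J (q / 2 ^ r), ms (Y j q) (K (j + r) p)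

theorem nsq_form (M : Matrix ι ι ℝ) (w : ι → ℝ) : nsq (M *ᵥ w) = w ⬝ᵥ (Mᵀ * M) *ᵥ w := by
  unfold H43.nsq
  rw [← mulVec_mulVec, dotProduct_mulVec w, vecMul_transpose]

/-- the form of a dominated family of vectors -/
theorem form_dom {k : ℕ} {p : ℤ} {u : ℤ → ι → ℝ} {Gp Kp Y : Matrix ι ι ℝ} {l : ℝ} (hl : 0 < l)
    (hG : (Gp - ((2 : ℝ) ^ k)⁻¹ • ∑ x ∈ iv k p, vecMulVec (u x) (u x)).PosSemidef)
    (hK : Kp * Kp = l • (1 : Matrix ι ι ℝ) + Gp) (hY : Y.PosSemidef) :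
    ∑ x ∈ iv k p, u x ⬝ᵥ Y *ᵥ u x ≤ 2 ^ k * ms Y Kp := by
  have h1 : ∑ x ∈ iv k p, u x ⬝ᵥ Y *ᵥ u x =
      2 ^ k * (Y * (((2 : ℝ) ^ k)⁻¹ • ∑ x ∈ iv k p, vecMulVec (u x) (u x))).trace := by
    rw [Matrix.mul_smul, trace_smul, smul_eq_mul, ← mul_assoc,
      mul_inv_cancel₀ (by positivity), one_mul, Matrix.mul_sum, trace_sum]
    refine sum_congr rfl fun x _ => ?_
    rw [mul_vecMulVec]
    simp [trace, vecMulVec_apply, dotProduct, mul_comm]
  have h0 := H420.trace_mul_nonneg hY hG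
  rw [Matrix.mul_sub, trace_sub] at h0
  have e1 : ms Y Kp = l * Y.trace + (Y * Gp).trace := by
    rw [ms, hK, Matrix.mul_add, trace_add, Matrix.mul_smul, trace_smul, smul_eq_mul,
      Matrix.mul_one]
  rw [h1, e1]
  have h2 := mul_nonneg hl.le hY.trace_nonneg
  exact mul_le_mul_of_nonneg_left (by linarith) (by positivity)

variable {n : ℕ} {l : ℝ} {S : ℤ} {G K : ℕ → ℤ → Matrix ι ι ℝ} {u : ℤ → ι → ℝ}
  {Y : ℕ → ℤ → Matrix ι ι ℝ}

open scoped Classical in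
/-- one scale and one layer; `A` are the cells where the Gram matrix dominates, the weight lives
there -/
theorem one (h : Tr l n G K) {k j r d J J' : ℕ} {A : ℤ → Prop}
    (hG : ∀ p, A p → (G (j + r) p -
      ((2 : ℝ) ^ (j + r))⁻¹ • ∑ x ∈ iv (j + r) p, vecMulVec (u x) (u x)).PosSemidef)
    (hjr : j + r ≤ n) (hkd : k + d ≤ n)
    (hM0 : ∀ q, q ∉ iv (n - j) S → Mx j q = 0) (hY : ∀ q, Y j q = (Mx j q)ᵀ * Mx j q)
    (T c σ sh δ : ℤ) (M : Finset ℤ) {W : ℤ → ℤ → ℝ} {e : ℝ} (he : 0 ≤ e)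
    (hW0 : ∀ x0 x2, 0 ≤ W x0 x2) (hW : ∀ i x2, ∑ x ∈ iv k i, W x x2 ≤ e * 2 ^ k)
    (hWA : ∀ x0 x2, W x0 x2 ≠ 0 → A (ix (j + r) x2))
    (hn : ∀ x0 x2 m, Tie k J c x0 x1 x2 (m + ix k sh) → (2 : ℤ) ^ d ∣ m + σ →
      |ix (j + r) x2 - (ck o x1 (2 ^ k * m + sh + δ) j - ix j x0) / 2 ^ r| ≤ J') :
    ∑ x0 ∈ iv n T, ∑ x2 ∈ iv n S, ∑ m ∈ M.filter (fun m =>
        Tie k J c x0 x1 x2 (m + ix k sh) ∧ (2 : ℤ) ^ d ∣ m + σ),
      W x0 x2 * Nn Mx o x1 j x0 (2 ^ k * m + sh + δ) (u x2) ≤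
    (2 * J + 1) * (e * 2 ^ (n - d)) * (2 ^ r * nbm Y K n S J' j r) := by
  have hYp : ∀ q, (Y j q).PosSemidef := by
    intro q
    rw [hY]
    have := posSemidef_conjTranspose_mul_self (Mx j q)
    rwa [conjTranspose_eq_transpose_of_trivial] at this
  set Φ : ℤ → ℝ := fun x2 => if A (ix (j + r) x2) then ∑ q ∈ (iv (n - j) S).filter (fun q =>
    |ix (j + r) x2 - q / 2 ^ r| ≤ J'), nsq (Mx j q *ᵥ u x2) else 0 with hΦ
  have hΦ0 : ∀ x2, 0 ≤ Φ x2 := by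
    intro x2
    simp only [hΦ]
    split_ifs
    · exact sum_nonneg fun q _ => nsq_nonneg _
    · exact le_rfl
  -- pointwise
  have h1 : ∀ x0 x2 m, Tie k J c x0 x1 x2 (m + ix k sh) → (2 : ℤ) ^ d ∣ m + σ →
      W x0 x2 * Nn Mx o x1 j x0 (2 ^ k * m + sh + δ) (u x2) ≤ W x0 x2 * Φ x2 := by
    intro x0 x2 m ht hd
    by_cases hw : W x0 x2 = 0
    · rw [hw, zero_mul, zero_mul]
    · refine mul_le_mul_of_nonneg_left ?_ (hW0 _ _)
      have h2 := hn x0 x2 m ht hd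
      by_cases hq : ck o x1 (2 ^ k * m + sh + δ) j - ix j x0 ∈ iv (n - j) S
      · simp only [hΦ]
        rw [if_pos (hWA x0 x2 hw)]
        unfold H841.Nn
        exact single_le_sum (f := fun q => nsq (Mx j q *ᵥ u x2)) (fun q _ => nsq_nonneg _)
          (mem_filter.2 ⟨hq, h2⟩)
      · unfold H841.Nn
        rw [hM0 _ hq, zero_mulVec, H841.nsq_zero]
        exact hΦ0 x2
  have h2 : ∑ x0 ∈ iv n T, ∑ x2 ∈ iv n S, ∑ m ∈ M.filter (fun m =>
        Tie k J c x0 x1 x2 (m + ix k sh) ∧ (2 : ℤ) ^ d ∣ m + σ),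
      W x0 x2 * Nn Mx o x1 j x0 (2 ^ k * m + sh + δ) (u x2) ≤
      ∑ x0 ∈ iv n T, ∑ x2 ∈ iv n S, (∑ _m ∈ M.filter (fun m =>
        Tie k J c x0 x1 x2 (m + ix k sh) ∧ (2 : ℤ) ^ d ∣ m + σ), W x0 x2) * Φ x2 := by
    refine sum_le_sum fun x0 _ => sum_le_sum fun x2 _ => ?_
    rw [sum_mul]
    refine sum_le_sum fun m hm => ?_
    have hm' := (mem_filter.1 hm).2
    exact h1 x0 x2 m hm'.1 hm'.2
  refine h2.trans ?_
  rw [sum_comm]
  have h3 : ∀ x2 ∈ iv n S, ∑ x0 ∈ iv n T, (∑ _m ∈ M.filter (fun m =>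
        Tie k J c x0 x1 x2 (m + ix k sh) ∧ (2 : ℤ) ^ d ∣ m + σ), W x0 x2) * Φ x2 ≤
      (2 * J + 1) * (e * 2 ^ (n - d)) * Φ x2 := by
    intro x2 _
    rw [← sum_mul]
    refine mul_le_mul_of_nonneg_right ?_ (hΦ0 x2)
    have h4 := cnt (W := fun x => W x x2) (fun x => hW0 x x2) (n := n) (J := J) he hkd
      (fun i => hW i x2) T (ix k x1 + ix k x2 + ix k sh - c) σ M
    refine le_trans (le_of_eq ?_) h4
    refine sum_congr rfl fun x0 _ => sum_congr ?_ fun _ _ => rfl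
    refine filter_congr fun m _ => ?_
    unfold H784.Tie
    have e1 : ix k x0 + ix k x1 + ix k x2 + (m + ix k sh) - c =
        ix k x0 + (ix k x1 + ix k x2 + ix k sh - c) + m := by ring
    rw [e1]
  refine (sum_le_sum h3).trans ?_
  rw [← mul_sum]
  refine mul_le_mul_of_nonneg_left ?_ (by positivity)
  -- the masses
  rw [sum_cells hjr S Φ]
  have h4 : ∀ p ∈ iv (n - (j + r)) S, ∑ x2 ∈ iv (j + r) p, Φ x2 ≤
      ∑ q ∈ iv (n - j) S, if |p - q / 2 ^ r| ≤ J' then 2 ^ (j + r) * ms (Y j q) (K (j + r) p)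
        else 0 := by
    intro p _
    by_cases hA : A p
    · have h5 : ∀ x2 ∈ iv (j + r) p, Φ x2 = ∑ q ∈ iv (n - j) S,
          if |p - q / 2 ^ r| ≤ J' then nsq (Mx j q *ᵥ u x2) else 0 := by
        intro x2 hx2
        simp only [hΦ]
        rw [mem_iv.1 hx2, if_pos hA, sum_filter]
      rw [sum_congr rfl h5, sum_comm]
      refine sum_le_sum fun q _ => ?_
      split_ifs
      · have h6 := form_dom h.l_pos (hG p hA) (h.sq (j + r) p) (hYp q)
        refine le_trans (le_of_eq ?_) h6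
        refine sum_congr rfl fun x _ => ?_
        rw [nsq_form, hY]
      · rw [sum_const_zero]
    · have h5 : ∀ x2 ∈ iv (j + r) p, Φ x2 = 0 := by
        intro x2 hx2
        simp only [hΦ]
        rw [mem_iv.1 hx2, if_neg hA]
      rw [sum_congr rfl h5, sum_const_zero]
      refine sum_nonneg fun q _ => ?_
      split_ifs
      · exact mul_nonneg (by positivity) (ms_nonneg (hYp q) (h.pdK _ _).isHermitian)
      · exact le_rfl
  refine (sum_le_sum h4).trans (le_of_eq ?_)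
  rw [sum_comm]
  unfold nbm
  rw [← mul_assoc, ← pow_add, add_comm r j, mul_sum]
  refine sum_congr rfl fun q _ => ?_
  unfold H784.near
  rw [mul_sum, sum_filter]

/-! ### The sum over the scales and the layers -/

theorem sum_shift {n : ℕ} (a b : ℕ → ℕ → ℝ) (ha : ∀ j r, 0 ≤ a j r) (hb : ∀ j r, 0 ≤ b j r) :
    ∑ k ∈ Icc 1 n, ∑ j ∈ Icc 1 n, (if j ≤ k then a j (k - j) else b j (j - k)) ≤
      ∑ r ∈ range n, ∑ j ∈ range (n + 1 - r), a j r +
        ∑ r ∈ range n, ∑ j ∈ range (n + 1), b j r := by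
  rw [sum_comm]
  have h1 : ∀ j ∈ Icc 1 n, ∑ k ∈ Icc 1 n, (if j ≤ k then a j (k - j) else b j (j - k)) ≤
      ∑ r ∈ range (n + 1 - j), a j r + ∑ r ∈ range n, b j r := by
    intro j hj
    rw [mem_Icc] at hj
    rw [sum_ite]
    refine add_le_add (le_of_eq ?_) ?_
    · refine sum_nbij' (fun k => k - j) (fun r => r + j) ?_ ?_ ?_ ?_ ?_
      · intro k hk; rw [mem_filter, mem_Icc] at hk; rw [mem_range]; omega
      · intro r hr; rw [mem_range] at hr; rw [mem_filter, mem_Icc]; omega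
      · intro k hk; rw [mem_filter, mem_Icc] at hk; show k - j + j = k; omega
      · intro r _; show r + j - j = r; omega
      · intro k _; rfl
    · have e : ∑ k ∈ (Icc 1 n).filter (fun k => ¬ j ≤ k), b j (j - k) =
          ∑ r ∈ Ico 1 j, b j r := by
        refine sum_nbij' (fun k => j - k) (fun r => j - r) ?_ ?_ ?_ ?_ ?_
        · intro k hk; rw [mem_filter, mem_Icc] at hk; rw [mem_Ico]; omega
        · intro r hr; rw [mem_Ico] at hr; rw [mem_filter, mem_Icc]; omega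
        · intro k hk; rw [mem_filter, mem_Icc] at hk; show j - (j - k) = k; omega
        · intro r hr; rw [mem_Ico] at hr; show j - (j - r) = r; omega
        · intro k _; rfl
      rw [e]
      refine sum_le_sum_of_subset_of_nonneg (fun r hr => ?_) fun r _ _ => hb j r
      rw [mem_Ico] at hr
      rw [mem_range]
      omega
  refine (sum_le_sum h1).trans ?_
  rw [sum_add_distrib]
  refine add_le_add ?_ ?_
  · have e : ∑ j ∈ Icc 1 n, ∑ r ∈ range (n + 1 - j), a j r =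
        ∑ r ∈ range n, ∑ j ∈ Icc 1 (n - r), a j r := by
      refine sum_comm' fun j r => ?_
      rw [mem_Icc, mem_range, mem_Icc, mem_range]
      omega
    rw [e]
    refine sum_le_sum fun r _ => sum_le_sum_of_subset_of_nonneg (fun j hj => ?_)
      fun j _ _ => ha j r
    rw [mem_Icc] at hj
    rw [mem_range]
    omega
  · rw [sum_comm]
    refine sum_le_sum fun r _ => sum_le_sum_of_subset_of_nonneg (fun j hj => ?_)
      fun j _ _ => hb j r
    rw [mem_Icc] at hj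
    rw [mem_range]
    omega

theorem sum_four (N : ℕ) : ∑ r ∈ range N, ((r : ℝ) + 1) ^ 4 * ((2 : ℝ) ^ r)⁻¹ ≤ 300 := by
  have h : ∀ N : ℕ, ∑ r ∈ range N, ((r : ℝ) + 1) ^ 4 * ((2 : ℝ) ^ r)⁻¹ =
      300 - (2 * (N : ℝ) ^ 4 + 16 * (N : ℝ) ^ 3 + 72 * (N : ℝ) ^ 2 + 208 * N + 300) *
        ((2 : ℝ) ^ N)⁻¹ := by
    intro N
    induction N with
    | zero => norm_num
    | succ N ih =>
      rw [sum_range_succ, ih, pow_succ (2 : ℝ) N, mul_inv]
      push_cast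
      ring
  rw [h]
  have : 0 ≤ (2 * (N : ℝ) ^ 4 + 16 * (N : ℝ) ^ 3 + 72 * (N : ℝ) ^ 2 + 208 * N + 300) *
      ((2 : ℝ) ^ N)⁻¹ := by positivity
  linarith

theorem nbm_nonneg (h : Tr l n G K) (hY : ∀ i q, (Y i q).PosSemidef) (J j r : ℕ) :
    0 ≤ nbm Y K n S J j r :=
  mul_nonneg (by positivity) (sum_nonneg fun q _ => sum_nonneg fun p _ =>
    ms_nonneg (hY j q) (h.pdK _ _).isHermitian)

/-- the masses of all the layers, `r` scales above -/
theorem nbm_sum (h : Tr l n G K) (hY : ∀ i q, (Y i q).PosSemidef)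
    (hY1 : ∀ i q, ((1 : Matrix ι ι ℝ) - Y i q).PosSemidef)
    (hY0 : ∀ q, Y 0 q = 0)
    (hYo : ∀ i, 1 ≤ i → i ≤ n → ∀ q ∈ iv (n - i) S, ms (Y i q) (K i q) ≤ gd K i q)
    (J r : ℕ) (hr : r ≤ n) :
    ∑ j ∈ range (n + 1 - r), nbm Y K n S J j r ≤
      396 * (2 * J + 1) ^ 3 * ((r : ℝ) + 1) ^ 2 * DK n S K := by
  have h1 := nb_mass h zero_le_one hY (fun i q => by rw [one_smul]; exact hY1 i q) S r J hr
  have hg : ∀ k p, 0 ≤ gd K k p := fun k p => gd_nonneg h k p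
  have h2 : ∑ i ∈ range (n + 1 - r), (2 : ℝ) ^ i * ∑ q ∈ iv (n - i) S, ms (Y i q) (K i q) ≤
      DK n S K := by
    unfold H784.DK
    have h3 : ∀ i ∈ range (n + 1 - r), (2 : ℝ) ^ i * ∑ q ∈ iv (n - i) S, ms (Y i q) (K i q) ≤
        if 1 ≤ i then 2 ^ i * ∑ q ∈ iv (n - i) S, gd K i q else 0 := by
      intro i hi
      rw [mem_range] at hi
      split_ifs with h4
      · exact mul_le_mul_of_nonneg_left (sum_le_sum (hYo i h4 (by omega))) (by positivity)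
      · have h5 : i = 0 := by omega
        subst h5
        refine le_of_eq ?_
        have h6 : ∀ q ∈ iv (n - 0) S, ms (Y 0 q) (K 0 q) = 0 := by
          intro q _
          rw [hY0]
          simp [H784.ms]
        rw [sum_congr rfl h6, sum_const_zero, mul_zero]
    refine (sum_le_sum h3).trans ?_
    rw [← sum_filter]
    refine sum_le_sum_of_subset_of_nonneg (fun i hi => ?_) fun i _ _ =>
      mul_nonneg (by positivity) (sum_nonneg fun q _ => hg i q)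
    rw [mem_filter, mem_range] at hi
    rw [mem_Icc]
    omega
  have hD : 0 ≤ DK n S K := sum_nonneg fun k _ => mul_nonneg (by positivity)
    (sum_nonneg fun q _ => hg k q)
  have h3 : ∑ j ∈ range (n + 1 - r), nbm Y K n S J j r ≤
      (2 * J + 1) * (3 * DK n S K + (12 * (r : ℝ) ^ 2 + 384 * (2 * J + 1) ^ 2) * DK n S K) := by
    refine le_trans (le_of_eq rfl) (h1.trans ?_)
    rw [one_mul]
    refine mul_le_mul_of_nonneg_left ?_ (by positivity)
    have h4 : ∑ k ∈ Icc 1 n, (2 : ℝ) ^ k * ∑ P ∈ iv (n - k) S, gd K k P = DK n S K := rfl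
    rw [h4]
    linarith
  refine h3.trans ?_
  have hJ : (0 : ℝ) ≤ J := Nat.cast_nonneg J
  have hr0 : (0 : ℝ) ≤ r := Nat.cast_nonneg r
  set V : ℝ := 2 * J + 1 with hV
  have hV1 : 1 ≤ V := by linarith
  have h5 : 3 + (12 * (r : ℝ) ^ 2 + 384 * V ^ 2) ≤ 396 * V ^ 2 * ((r : ℝ) + 1) ^ 2 := by
    have a1 : 1 ≤ V ^ 2 := one_le_pow₀ hV1
    have a2 : (r : ℝ) ^ 2 + 1 ≤ ((r : ℝ) + 1) ^ 2 := by nlinarith
    have a3 : (r : ℝ) ^ 2 + 1 ≤ V ^ 2 * ((r : ℝ) + 1) ^ 2 := by nlinarith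
    have a4 : V ^ 2 * 1 ≤ V ^ 2 * ((r : ℝ) + 1) ^ 2 :=
      mul_le_mul_of_nonneg_left (by nlinarith) (by positivity)
    nlinarith
  have h6 := mul_le_mul_of_nonneg_right (mul_le_mul_of_nonneg_left h5
    (show 0 ≤ V by linarith)) hD
  refine le_trans (le_of_eq ?_) (h6.trans (le_of_eq ?_))
  · ring
  · ring

theorem Al_up {Al : ℕ → ℤ → Prop} (hup : ∀ k < n, ∀ p, Al k p → Al (k + 1) (p / 2)) {x : ℤ}
    {k : ℕ} : ∀ j, k ≤ j → j ≤ n → Al k (ix k x) → Al j (ix j x) := by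
  intro j hkj
  induction j, hkj using Nat.le_induction with
  | base => exact fun _ h => h
  | succ j _ ih =>
    intro hj h
    have h1 := hup j (by omega) _ (ih (by omega) h)
    rwa [← H841.ix_half] at h1

/-- **the variation of the averaged slot against `u`**, all cells within `J` of the plane. `Al` is
closed upwards, the Gram matrices dominate on `Al`, the weight lives on `Al`. -/
theorem var_slot (h : Tr l n G K) {Al : ℕ → ℤ → Prop}
    (hup : ∀ k < n, ∀ p, Al k p → Al (k + 1) (p / 2))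
    (hG : ∀ k ≤ n, ∀ p, Al k p → (G k p -
      ((2 : ℝ) ^ k)⁻¹ • ∑ x ∈ iv k p, vecMulVec (u x) (u x)).PosSemidef)
    (hM0 : ∀ i, 1 ≤ i → i ≤ n → ∀ q, q ∉ iv (n - i) S → Mx i q = 0)
    (hM1 : ∀ i, 1 ≤ i → i ≤ n → ∀ q, ((1 : Matrix ι ι ℝ) - (Mx i q)ᵀ * Mx i q).PosSemidef)
    (hMo : ∀ i, 1 ≤ i → i ≤ n → ∀ q ∈ iv (n - i) S,
      ms ((Mx i q)ᵀ * Mx i q) (K i q) ≤ gd K i q)
    (hs1 : ∀ k a b, |s k a b| ≤ 1) (ho : o = 1 ∨ o = -1) (T sh : ℤ) (J : ℕ)
    (Ms : ℕ → Finset ℤ) {W : ℕ → ℤ → ℤ → ℝ} {e : ℝ} (he : 0 ≤ e)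
    (hW0 : ∀ k x0 x2, 0 ≤ W k x0 x2)
    (hW : ∀ k ∈ Icc 1 n, ∀ i x2, ∑ x0 ∈ iv k i, W k x0 x2 ≤ e * 2 ^ k)
    (hWA : ∀ k ∈ Icc 1 n, ∀ x0 x2, W k x0 x2 ≠ 0 → Al k (ix k x2)) :
    ∑ x0 ∈ iv n T, ∑ k ∈ Icc 1 n, ∑ x2 ∈ iv n S,
      ∑ m ∈ (Ms k).filter (fun m => Tie k J (o - 2) x0 x1 x2 (m + ix k sh)), W k x0 x2 *
        nsq ((Rs Mx o x1 s n sh (k - 1) x0 (2 * m) - Rs Mx o x1 s n sh k x0 m) *ᵥ u x2) ≤
      120000000 * (2 * J + 13) ^ 4 * (e * 2 ^ n) * DK n S K := by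
  set Y : ℕ → ℤ → Matrix ι ι ℝ := fun j q =>
    if 1 ≤ j ∧ j ≤ n then (Mx j q)ᵀ * Mx j q else 0 with hYdef
  have hYM : ∀ j, 1 ≤ j → j ≤ n → ∀ q, Y j q = (Mx j q)ᵀ * Mx j q := by
    intro j h1 h2 q
    simp only [hYdef]
    rw [if_pos ⟨h1, h2⟩]
  have hY : ∀ i q, (Y i q).PosSemidef := by
    intro i q
    simp only [hYdef]
    split_ifs
    · have := posSemidef_conjTranspose_mul_self (Mx i q)
      rwa [conjTranspose_eq_transpose_of_trivial] at this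
    · exact PosSemidef.zero
  have hY1 : ∀ i q, ((1 : Matrix ι ι ℝ) - Y i q).PosSemidef := by
    intro i q
    simp only [hYdef]
    split_ifs with h1
    · exact hM1 i h1.1 h1.2 q
    · rw [sub_zero]; exact PosSemidef.one
  have hY0 : ∀ q, Y 0 q = 0 := by
    intro q
    simp only [hYdef]
    rw [if_neg (by omega)]
  have hYo : ∀ i, 1 ≤ i → i ≤ n → ∀ q ∈ iv (n - i) S, ms (Y i q) (K i q) ≤ gd K i q := by
    intro i h1 h2 q hq
    rw [hYM i h1 h2]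
    exact hMo i h1 h2 q hq
  set C : ℝ := (2 * J + 1) * (e * 2 ^ n) with hC
  have hC0 : 0 ≤ C := by positivity
  set g : ℕ → ℝ := fun r => 16 * ((r : ℝ) + 1) ^ 2 * ((2 : ℝ) ^ r)⁻¹ with hg
  have hg0 : ∀ r, 0 ≤ g r := fun r => by simp only [hg]; positivity
  have hn0 : ∀ j r, 0 ≤ nbm Y K n S (J + 6) j r := fun j r => nbm_nonneg h hY _ j r
  -- one scale, one layer, one point
  have key : ∀ k ∈ Icc 1 n, ∀ j ∈ Icc 1 n, ∀ e' : Fin 3,
      ∑ x0 ∈ iv n T, ∑ x2 ∈ iv n S,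
        ∑ m ∈ (Ms k).filter (fun m => Tie k J (o - 2) x0 x1 x2 (m + ix k sh)),
        Om sh k j m * (W k x0 x2 * Nn Mx o x1 j x0 (2 ^ k * m + sh + pe k e') (u x2)) ≤
      if j ≤ k then g (k - j) * (C * nbm Y K n S (J + 6) j (k - j))
        else g (j - k) * (C * nbm Y K n S (J + 6) j 0) := by
    intro k hk j hj e'
    have hk' := mem_Icc.1 hk
    have hj' := mem_Icc.1 hj
    obtain ⟨p1, p2⟩ := pe_bd (k := k) e'
    split_ifs with hjk
    · have h1 := one (x1 := x1) (o := o) h (A := Al (j + (k - j))) (k := k) (j := j)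
        (r := k - j) (d := 0) (J := J) (J' := J + 6) (hG (j + (k - j)) (by omega)) (by omega)
        (by omega) (hM0 j hj'.1 hj'.2) (hYM j hj'.1 hj'.2) T (o - 2) 0 sh
        (pe k e') (Ms k) he (hW0 k) (hW k hk) (fun x0 x2 hw => by
          rw [show j + (k - j) = k by omega]
          exact hWA k hk x0 x2 hw) (fun x0 x2 m ht _ => by
          rw [show j + (k - j) = k by omega]
          exact near_fine hjk ho ht (by linarith) (by linarith))
      have e1 : ∀ x0 x2, ∑ m ∈ (Ms k).filter (fun m =>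
          Tie k J (o - 2) x0 x1 x2 (m + ix k sh)),
          Om sh k j m * (W k x0 x2 * Nn Mx o x1 j x0 (2 ^ k * m + sh + pe k e') (u x2)) =
          8 * (((k - j : ℕ) : ℝ) + 1) ^ 2 * ((4 : ℝ) ^ (k - j))⁻¹ *
          ∑ m ∈ (Ms k).filter (fun m => Tie k J (o - 2) x0 x1 x2 (m + ix k sh) ∧
            (2 : ℤ) ^ 0 ∣ m + 0),
          W k x0 x2 * Nn Mx o x1 j x0 (2 ^ k * m + sh + pe k e') (u x2) := by
        intro x0 x2
        rw [mul_sum]
        refine sum_congr (filter_congr fun m _ => ?_) fun m _ => ?_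
        · simp
        · unfold Om
          rw [if_pos hjk]
      rw [sum_congr rfl fun x0 _ => (sum_congr rfl fun x2 _ => e1 x0 x2).trans
        (mul_sum _ _ _).symm, ← mul_sum]
      refine (mul_le_mul_of_nonneg_left h1 (by positivity)).trans ?_
      rw [Nat.sub_zero, ← hC]
      have e2 : ((4 : ℝ) ^ (k - j))⁻¹ * 2 ^ (k - j) = ((2 : ℝ) ^ (k - j))⁻¹ := by
        have : (4 : ℝ) ^ (k - j) = 2 ^ (k - j) * 2 ^ (k - j) := by
          rw [← mul_pow]; norm_num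
        rw [this, mul_inv, mul_assoc, inv_mul_cancel₀ (by positivity), mul_one]
      have e3 : 8 * (((k - j : ℕ) : ℝ) + 1) ^ 2 * ((4 : ℝ) ^ (k - j))⁻¹ *
          (C * (2 ^ (k - j) * nbm Y K n S (J + 6) j (k - j))) =
          8 * (((k - j : ℕ) : ℝ) + 1) ^ 2 * (((4 : ℝ) ^ (k - j))⁻¹ * 2 ^ (k - j)) *
          (C * nbm Y K n S (J + 6) j (k - j)) := by ring
      rw [e3, e2]
      simp only [hg]
      refine mul_le_mul_of_nonneg_right ?_ (mul_nonneg hC0 (hn0 _ _))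
      refine mul_le_mul_of_nonneg_right ?_ (by positivity)
      have : 0 ≤ (((k - j : ℕ) : ℝ) + 1) ^ 2 := by positivity
      linarith
    · have h1 := one (x1 := x1) (o := o) h (A := Al (j + 0)) (k := k) (j := j) (r := 0)
        (d := j - 1 - k) (J := J) (J' := J + 6) (hG (j + 0) (by omega)) (by omega) (by omega)
        (hM0 j hj'.1 hj'.2) (hYM j hj'.1 hj'.2) T
        (o - 2) (ix k sh + 1) sh (pe k e') (Ms k) he (hW0 k) (hW k hk)
        (fun x0 x2 hw => Al_up hup (j + 0) (by omega) (by omega) (hWA k hk x0 x2 hw))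
        (fun x0 x2 m ht _ => by
          rw [pow_zero, Int.ediv_one, add_zero]
          exact near_coarse (by omega) ho ht (by linarith) (by linarith))
      have e1 : ∀ x0 x2, ∑ m ∈ (Ms k).filter (fun m =>
          Tie k J (o - 2) x0 x1 x2 (m + ix k sh)),
          Om sh k j m * (W k x0 x2 * Nn Mx o x1 j x0 (2 ^ k * m + sh + pe k e') (u x2)) =
          8 * (((j - k : ℕ) : ℝ) + 1) ^ 2 *
          ∑ m ∈ (Ms k).filter (fun m => Tie k J (o - 2) x0 x1 x2 (m + ix k sh) ∧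
            (2 : ℤ) ^ (j - 1 - k) ∣ m + (ix k sh + 1)),
          W k x0 x2 * Nn Mx o x1 j x0 (2 ^ k * m + sh + pe k e') (u x2) := by
        intro x0 x2
        rw [mul_sum, ← filter_filter]
        symm
        rw [sum_filter]
        refine sum_congr rfl fun m _ => ?_
        unfold Om
        rw [if_neg hjk, ← add_assoc]
        split_ifs
        · rfl
        · rw [zero_mul]
      rw [sum_congr rfl fun x0 _ => (sum_congr rfl fun x2 _ => e1 x0 x2).trans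
        (mul_sum _ _ _).symm, ← mul_sum]
      refine (mul_le_mul_of_nonneg_left h1 (by positivity)).trans (le_of_eq ?_)
      simp only [hg]
      have e2 : (2 : ℝ) ^ (n - (j - 1 - k)) = 2 * 2 ^ n * ((2 : ℝ) ^ (j - k))⁻¹ := by
        rw [eq_mul_inv_iff_mul_eq₀ (by positivity), ← pow_add, ← pow_succ']
        congr 1
        omega
      rw [e2, pow_zero, one_mul, hC]
      ring
  -- all scales
  have h1 : ∑ x0 ∈ iv n T, ∑ k ∈ Icc 1 n, ∑ x2 ∈ iv n S,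
      ∑ m ∈ (Ms k).filter (fun m => Tie k J (o - 2) x0 x1 x2 (m + ix k sh)), W k x0 x2 *
        nsq ((Rs Mx o x1 s n sh (k - 1) x0 (2 * m) - Rs Mx o x1 s n sh k x0 m) *ᵥ u x2) ≤
      10 * ∑ k ∈ Icc 1 n, ∑ j ∈ Icc 1 n, ∑ e' : Fin 3, ∑ x0 ∈ iv n T, ∑ x2 ∈ iv n S,
        ∑ m ∈ (Ms k).filter (fun m => Tie k J (o - 2) x0 x1 x2 (m + ix k sh)),
        Om sh k j m * (W k x0 x2 * Nn Mx o x1 j x0 (2 ^ k * m + sh + pe k e') (u x2)) := by
    rw [sum_comm, mul_sum]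
    refine sum_le_sum fun k hk => ?_
    have hk' := mem_Icc.1 hk
    have e1 : ∑ j ∈ Icc 1 n, ∑ e' : Fin 3, ∑ x0 ∈ iv n T, ∑ x2 ∈ iv n S,
        ∑ m ∈ (Ms k).filter (fun m => Tie k J (o - 2) x0 x1 x2 (m + ix k sh)),
        Om sh k j m * (W k x0 x2 * Nn Mx o x1 j x0 (2 ^ k * m + sh + pe k e') (u x2)) =
        ∑ x0 ∈ iv n T, ∑ x2 ∈ iv n S,
        ∑ m ∈ (Ms k).filter (fun m => Tie k J (o - 2) x0 x1 x2 (m + ix k sh)),
        ∑ j ∈ Icc 1 n, ∑ e' : Fin 3,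
        Om sh k j m * (W k x0 x2 * Nn Mx o x1 j x0 (2 ^ k * m + sh + pe k e') (u x2)) := by
      have f1 : ∀ j ∈ Icc 1 n, ∑ e' : Fin 3, ∑ x0 ∈ iv n T, ∑ x2 ∈ iv n S,
          ∑ m ∈ (Ms k).filter (fun m => Tie k J (o - 2) x0 x1 x2 (m + ix k sh)),
          Om sh k j m * (W k x0 x2 * Nn Mx o x1 j x0 (2 ^ k * m + sh + pe k e') (u x2)) =
          ∑ x0 ∈ iv n T, ∑ x2 ∈ iv n S,
          ∑ m ∈ (Ms k).filter (fun m => Tie k J (o - 2) x0 x1 x2 (m + ix k sh)), ∑ e' : Fin 3,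
          Om sh k j m * (W k x0 x2 * Nn Mx o x1 j x0 (2 ^ k * m + sh + pe k e') (u x2)) := by
        intro j _
        rw [sum_comm]
        refine sum_congr rfl fun x0 _ => ?_
        rw [sum_comm]
        refine sum_congr rfl fun x2 _ => ?_
        rw [sum_comm]
      rw [sum_congr rfl f1, sum_comm]
      refine sum_congr rfl fun x0 _ => ?_
      rw [sum_comm]
      refine sum_congr rfl fun x2 _ => ?_
      rw [sum_comm]
    rw [e1, mul_sum]
    refine sum_le_sum fun x0 _ => ?_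
    rw [mul_sum]
    refine sum_le_sum fun x2 _ => ?_
    rw [mul_sum]
    refine sum_le_sum fun m _ => ?_
    refine (mul_le_mul_of_nonneg_left (pt_le (Mx := Mx) (o := o) (x1 := x1) hs1 hk'.1 hk'.2 sh x0
      m (u x2)) (hW0 k x0 x2)).trans (le_of_eq ?_)
    rw [mul_left_comm]
    congr 1
    rw [mul_sum]
    refine sum_congr rfl fun j _ => ?_
    rw [mul_sum, mul_sum]
    refine sum_congr rfl fun e' _ => ?_
    ring
  refine h1.trans ?_
  have h2 : ∑ k ∈ Icc 1 n, ∑ j ∈ Icc 1 n, ∑ e' : Fin 3, ∑ x0 ∈ iv n T, ∑ x2 ∈ iv n S,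
        ∑ m ∈ (Ms k).filter (fun m => Tie k J (o - 2) x0 x1 x2 (m + ix k sh)),
        Om sh k j m * (W k x0 x2 * Nn Mx o x1 j x0 (2 ^ k * m + sh + pe k e') (u x2)) ≤
      3 * ∑ k ∈ Icc 1 n, ∑ j ∈ Icc 1 n,
        (if j ≤ k then (fun j r => g r * (C * nbm Y K n S (J + 6) j r)) j (k - j)
        else (fun j r => g r * (C * nbm Y K n S (J + 6) j 0)) j (j - k)) := by
    rw [mul_sum]
    refine sum_le_sum fun k hk => ?_
    rw [mul_sum]
    refine sum_le_sum fun j hj => ?_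
    refine (sum_le_sum fun e' _ => key k hk j hj e').trans (le_of_eq ?_)
    rw [sum_const, card_univ, Fintype.card_fin, nsmul_eq_mul]
    push_cast
    rfl
  have h3 := sum_shift (n := n) (fun j r => g r * (C * nbm Y K n S (J + 6) j r))
    (fun j r => g r * (C * nbm Y K n S (J + 6) j 0))
    (fun j r => mul_nonneg (hg0 r) (mul_nonneg hC0 (hn0 j r)))
    (fun j r => mul_nonneg (hg0 r) (mul_nonneg hC0 (hn0 j 0)))
  have hD : 0 ≤ DK n S K := sum_nonneg fun k _ => mul_nonneg (by positivity)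
    (sum_nonneg fun q _ => gd_nonneg h k q)
  set V : ℝ := 2 * ((J + 6 : ℕ) : ℝ) + 1 with hV
  have hV0 : 0 ≤ V := by positivity
  have h4 : ∑ r ∈ range n, ∑ j ∈ range (n + 1 - r), g r * (C * nbm Y K n S (J + 6) j r) ≤
      1900800 * V ^ 3 * C * DK n S K := by
    have f1 : ∀ r ∈ range n, ∑ j ∈ range (n + 1 - r), g r * (C * nbm Y K n S (J + 6) j r) ≤
        6336 * V ^ 3 * C * DK n S K * (((r : ℝ) + 1) ^ 4 * ((2 : ℝ) ^ r)⁻¹) := by
      intro r hr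
      rw [mem_range] at hr
      rw [← mul_sum, ← mul_sum]
      have f2 := nbm_sum h hY hY1 hY0 hYo (J + 6) r hr.le
      rw [← hV] at f2
      refine (mul_le_mul_of_nonneg_left (mul_le_mul_of_nonneg_left f2 hC0) (hg0 r)).trans
        (le_of_eq ?_)
      simp only [hg]
      ring
    refine (sum_le_sum f1).trans ?_
    rw [← mul_sum]
    have f3 := mul_le_mul_of_nonneg_left (sum_four n)
      (show 0 ≤ 6336 * V ^ 3 * C * DK n S K by positivity)
    refine f3.trans (le_of_eq ?_)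
    ring
  have h5 : ∑ r ∈ range n, ∑ j ∈ range (n + 1), g r * (C * nbm Y K n S (J + 6) j 0) ≤
      1900800 * V ^ 3 * C * DK n S K := by
    have f1 : ∀ r ∈ range n, ∑ j ∈ range (n + 1), g r * (C * nbm Y K n S (J + 6) j 0) ≤
        6336 * V ^ 3 * C * DK n S K * (((r : ℝ) + 1) ^ 4 * ((2 : ℝ) ^ r)⁻¹) := by
      intro r _
      rw [← mul_sum, ← mul_sum]
      have f2 := nbm_sum h hY hY1 hY0 hYo (J + 6) 0 (Nat.zero_le n)
      rw [← hV, Nat.sub_zero] at f2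
      refine (mul_le_mul_of_nonneg_left (mul_le_mul_of_nonneg_left f2 hC0) (hg0 r)).trans ?_
      simp only [hg]
      have f3 : ((r : ℝ) + 1) ^ 2 ≤ ((r : ℝ) + 1) ^ 4 := by
        have : (1 : ℝ) ≤ (r : ℝ) + 1 := by have : (0 : ℝ) ≤ r := Nat.cast_nonneg r
                                           linarith
        exact pow_le_pow_right₀ this (by norm_num)
      have f4 : 0 ≤ 6336 * V ^ 3 * C * DK n S K * ((2 : ℝ) ^ r)⁻¹ := by positivity
      have f5 := mul_le_mul_of_nonneg_left f3 f4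
      push_cast
      nlinarith
    refine (sum_le_sum f1).trans ?_
    rw [← mul_sum]
    have f3 := mul_le_mul_of_nonneg_left (sum_four n)
      (show 0 ≤ 6336 * V ^ 3 * C * DK n S K by positivity)
    refine f3.trans (le_of_eq ?_)
    ring
  have hVJ : V = 2 * (J : ℝ) + 13 := by rw [hV]; push_cast; ring
  have h6 : C ≤ V * (e * 2 ^ n) := by
    rw [hC, hVJ]
    exact mul_le_mul_of_nonneg_right (by linarith) (by positivity)
  have h7 : 114048000 * V ^ 3 * C * DK n S K ≤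
      120000000 * V ^ 4 * (e * 2 ^ n) * DK n S K := by
    refine mul_le_mul_of_nonneg_right ?_ hD
    have a1 := mul_le_mul_of_nonneg_left h6 (show 0 ≤ 114048000 * V ^ 3 by positivity)
    have a2 : 0 ≤ V ^ 4 * (e * 2 ^ n) := by positivity
    nlinarith
  rw [← hVJ]
  refine le_trans ?_ h7
  have h8 := h2.trans (mul_le_mul_of_nonneg_left (h3.trans (add_le_add h4 h5))
    (by norm_num : (0 : ℝ) ≤ 3))
  have h9 := mul_le_mul_of_nonneg_left h8 (by norm_num : (0 : ℝ) ≤ 10)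
  refine h9.trans (le_of_eq ?_)
  ring

/-! ### The matrices of the flow -/

/-- the matrix of the flow inside the root, `0` outside -/
def Mr (l : ℝ) (n : ℕ) (S : ℤ) (K : ℕ → ℤ → Matrix ι ι ℝ) (i : ℕ) (q : ℤ) : Matrix ι ι ℝ :=
  if q ∈ iv (n - i) S then H677.MT l K i q else 0

theorem MT_symm (h : Tr l n G K) (i : ℕ) (q : ℤ) : (H677.MT l K i q)ᵀ = H677.MT l K i q := by
  have h1 : (K i q)ᵀ = K i q := tr_symm (h.pdK i q).isHermitian
  have h2 : (H483.hd K i q)ᵀ = H483.hd K i q := by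
    unfold H483.hd
    rw [transpose_smul, transpose_sub, tr_symm (h.pdK _ _).isHermitian,
      tr_symm (h.pdK _ _).isHermitian]
  unfold H677.MT
  rw [transpose_smul, transpose_mul, transpose_mul, transpose_nonsing_inv, h1, h2,
    Matrix.mul_assoc]

theorem MT_contr (h : Tr l n G K) {i : ℕ} (hi : 1 ≤ i) (hin : i ≤ n) (q : ℤ) :
    ((1 : Matrix ι ι ℝ) - (H677.MT l K i q)ᵀ * H677.MT l K i q).PosSemidef := by
  obtain ⟨j, rfl⟩ : ∃ j, i = j + 1 := ⟨i - 1, by omega⟩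
  refine PosSemidef.of_dotProduct_mulVec_nonneg ?_ fun v => ?_
  · have h1 : ((H677.MT l K (j + 1) q)ᵀ * H677.MT l K (j + 1) q).IsHermitian := by
      have := isHermitian_conjTranspose_mul_self (H677.MT l K (j + 1) q)
      rwa [conjTranspose_eq_transpose_of_trivial] at this
    exact isHermitian_one.sub h1
  · rw [star_trivial, sub_mulVec, one_mulVec, dotProduct_sub, ← nsq_form]
    have h1 := H483.mT_le h (show j < n by omega) q v
    have h2 : nsq (H677.MT l K (j + 1) q *ᵥ v) ≤ v ⬝ᵥ v := by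
      rw [H677.MT_mulVec]
      exact h1
    linarith

theorem MT_own (h : Tr l n G K) {i : ℕ} (hi : 1 ≤ i) (hin : i ≤ n) (q : ℤ) :
    ms ((H677.MT l K i q)ᵀ * H677.MT l K i q) (K i q) ≤ gd K i q := by
  obtain ⟨j, rfl⟩ : ∃ j, i = j + 1 := ⟨i - 1, by omega⟩
  have h1 := H784.own_flow (h.nd (show j < n by omega) q)
  rw [MT_symm h]
  unfold H677.MT H784.gd
  rw [H784.hd_eq, ← Matrix.mul_assoc]
  exact h1

omit [Fintype ι] [DecidableEq ι] in
/-- the averaged slot depends only on the layers with a sign -/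
theorem Rs_congr {Mx' : ℕ → ℤ → Matrix ι ι ℝ}
    (hc : ∀ i, 1 ≤ i → i ≤ n → ∀ a b, s i a b ≠ 0 →
      Mx i (o - 2 - ix i x1 - b - a) = Mx' i (o - 2 - ix i x1 - b - a)) (sh : ℤ) (k : ℕ)
    (x0 m : ℤ) : Rs Mx o x1 s n sh k x0 m = Rs Mx' o x1 s n sh k x0 m := by
  unfold H841.Rs
  congr 1
  funext p
  unfold H841.Rm
  refine sum_congr rfl fun i hi => ?_
  rw [mem_Ico] at hi
  unfold H841.Lm H922.ck
  by_cases h1 : s (i + 1) (ix (i + 1) x0) (ix (i + 1) (p + sh)) = 0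
  · rw [h1, zero_mul, zero_smul, zero_smul]
  · rw [hc (i + 1) (by omega) (by omega) _ _ h1]

/-- **the number `EV` of TF, one `x1`, over the stopped tree** `K'`. `Al` is closed upwards; on
`Al` the matrices `G'` dominate the vectors and the children of `K'` are those of `K`; the signs
and the weight live on `Al`. -/
theorem var_stop {G' K' : ℕ → ℤ → Matrix ι ι ℝ} (h : Tr l n G' K') {Al : ℕ → ℤ → Prop}
    (hup : ∀ k < n, ∀ p, Al k p → Al (k + 1) (p / 2))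
    (hG : ∀ k ≤ n, ∀ p, Al k p → (G' k p -
      ((2 : ℝ) ^ k)⁻¹ • ∑ x ∈ iv k p, vecMulVec (u x) (u x)).PosSemidef)
    (hK : ∀ i, 1 ≤ i → i ≤ n → ∀ q, Al i q → H677.MT l K i q = H677.MT l K' i q)
    (hsA : ∀ i, 1 ≤ i → i ≤ n → ∀ a b, s i a b ≠ 0 → Al i (o - 2 - ix i x1 - b - a))
    (hs1 : ∀ k a b, |s k a b| ≤ 1) (ho : o = 1 ∨ o = -1) (T sh : ℤ) (J : ℕ)
    (Ms : ℕ → Finset ℤ) {W : ℕ → ℤ → ℤ → ℝ} {e : ℝ} (he : 0 ≤ e)
    (hW0 : ∀ k x0 x2, 0 ≤ W k x0 x2)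
    (hW : ∀ k ∈ Icc 1 n, ∀ i x2, ∑ x0 ∈ iv k i, W k x0 x2 ≤ e * 2 ^ k)
    (hWA : ∀ k ∈ Icc 1 n, ∀ x0 x2, W k x0 x2 ≠ 0 → Al k (ix k x2)) :
    ∑ x0 ∈ iv n T, ∑ k ∈ Icc 1 n, ∑ x2 ∈ iv n S,
      ∑ m ∈ (Ms k).filter (fun m => Tie k J (o - 2) x0 x1 x2 (m + ix k sh)), W k x0 x2 *
        nsq ((Rs (Mr l n S K) o x1 s n sh (k - 1) x0 (2 * m) -
          Rs (Mr l n S K) o x1 s n sh k x0 m) *ᵥ u x2) ≤
      120000000 * (2 * J + 13) ^ 4 * (e * 2 ^ n) * DK n S K' := by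
  have hR := Rs_congr (Mx := Mr l n S K) (Mx' := Mr l n S K') (o := o) (x1 := x1) (s := s)
    (n := n) (fun i h1 h2 a b hab => by
      unfold Mr
      rw [hK i h1 h2 _ (hsA i h1 h2 a b hab)]) sh
  simp only [hR]
  refine var_slot h hup hG (fun i _ _ q hq => if_neg hq) (fun i h1 h2 q => ?_)
    (fun i h1 h2 q hq => ?_) hs1 ho T sh J Ms he hW0 hW hWA
  · split_ifs
    · exact MT_contr h h1 h2 q
    · rw [mul_zero, sub_zero]; exact PosSemidef.one
  · rw [if_pos hq]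
    exact MT_own h h1 h2 q

/-- the same with the top energy; `P` bounds the forms of the stopped tree at the scale `0` -/
theorem var_stop_top {G' K' : ℕ → ℤ → Matrix ι ι ℝ} (h : Tr l n G' K') {Al : ℕ → ℤ → Prop}
    (hup : ∀ k < n, ∀ p, Al k p → Al (k + 1) (p / 2))
    (hG : ∀ k ≤ n, ∀ p, Al k p → (G' k p -
      ((2 : ℝ) ^ k)⁻¹ • ∑ x ∈ iv k p, vecMulVec (u x) (u x)).PosSemidef)
    (hK : ∀ i, 1 ≤ i → i ≤ n → ∀ q, Al i q → H677.MT l K i q = H677.MT l K' i q)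
    {P : ℝ} (hP : 0 ≤ P) (hGP : ∀ m, ∀ v : ι → ℝ, v ⬝ᵥ G' 0 m *ᵥ v ≤ P * (v ⬝ᵥ v))
    (hsA : ∀ i, 1 ≤ i → i ≤ n → ∀ a b, s i a b ≠ 0 → Al i (o - 2 - ix i x1 - b - a))
    (hs1 : ∀ k a b, |s k a b| ≤ 1) (ho : o = 1 ∨ o = -1) (T sh : ℤ) (J : ℕ)
    (Ms : ℕ → Finset ℤ) {W : ℕ → ℤ → ℤ → ℝ} {e : ℝ} (he : 0 ≤ e)
    (hW0 : ∀ k x0 x2, 0 ≤ W k x0 x2)
    (hW : ∀ k ∈ Icc 1 n, ∀ i x2, ∑ x0 ∈ iv k i, W k x0 x2 ≤ e * 2 ^ k)
    (hWA : ∀ k ∈ Icc 1 n, ∀ x0 x2, W k x0 x2 ≠ 0 → Al k (ix k x2)) :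
    ∑ x0 ∈ iv n T, ∑ k ∈ Icc 1 n, ∑ x2 ∈ iv n S,
      ∑ m ∈ (Ms k).filter (fun m => Tie k J (o - 2) x0 x1 x2 (m + ix k sh)), W k x0 x2 *
        nsq ((Rs (Mr l n S K) o x1 s n sh (k - 1) x0 (2 * m) -
          Rs (Mr l n S K) o x1 s n sh k x0 m) *ᵥ u x2) ≤
      120000000 * (2 * J + 13) ^ 4 * (1 + Real.log (1 + P / l)) *
        (e * 4 ^ n * (G' n S).trace) := by
  refine (var_stop h hup hG hK hsA hs1 ho T sh J Ms he hW0 hW hWA).trans ?_
  have h1 : DK n S K' ≤ 2 ^ n * ((1 + Real.log (1 + P / l)) * (G' n S).trace) :=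
    H784.DK_le h hP hGP S
  refine (mul_le_mul_of_nonneg_left h1 (by positivity)).trans (le_of_eq ?_)
  have e1 : (4 : ℝ) ^ n = 2 ^ n * 2 ^ n := by rw [← mul_pow]; norm_num
  rw [e1]
  ring

end

end Vale.Agent.P141.H771
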