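import Vale.Agent.P141.H483.Chain

/-!
# P141, line (A): the Hilbert-Schmidt energy of `K = (l + G)^{1/2}` on the dyadic tree

`dK_tree`: `SUM mean |K_child - K|² ≤ log (1 + M / l) * tr G_top`, free of the number of scales
and of the dimension.  Proof: Klein's inequality in the two eigenbases with
`(a - b)² ≤ a² log (a² / b²) - a² + b²`.
-/

namespace Vale.Agent.P141.H771

open Matrix Finset
open Vale.Agent.P141.H420 hiding tsum
open Vale.Agent.P141.H483

set_option linter.unusedSectionVars false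

noncomputable section

variable {ι : Type*} [Fintype ι] [DecidableEq ι]

/-- squared Hilbert-Schmidt norm -/
def hs2 (A : Matrix ι ι ℝ) : ℝ := (A * Aᵀ).trace

theorem hs2_eq (A : Matrix ι ι ℝ) : hs2 A = ∑ i, ∑ j, A i j ^ 2 := by
  simp only [hs2, Matrix.trace, Matrix.diag, Matrix.mul_apply, Matrix.transpose_apply, sq]

theorem hs2_nonneg (A : Matrix ι ι ℝ) : 0 ≤ hs2 A := by
  rw [hs2_eq]; positivity

/-- the potential `x log (x / l) - x + l` -/
def ph (l x : ℝ) : ℝ := x * Real.log (x / l) - x + l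

theorem ph_nonneg {l x : ℝ} (hl : 0 < l) (hx : 0 < x) : 0 ≤ ph l x := by
  have h1 := Real.one_sub_inv_le_log_of_pos (x := x / l) (by positivity)
  have h2 : x * (1 - (x / l)⁻¹) = x - l := by field_simp
  have h3 := mul_le_mul_of_nonneg_left h1 hx.le
  rw [h2] at h3
  unfold ph
  linarith

theorem ph_le {l g M : ℝ} (hl : 0 < l) (hg : 0 ≤ g) (hM : g ≤ M) :
    ph l (l + g) ≤ g * Real.log (1 + M / l) := by
  have e1 : (l + g) / l = 1 + g / l := by field_simp
  have h1 : Real.log (1 + g / l) ≤ g / l := by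
    have h := Real.log_le_sub_one_of_pos (x := 1 + g / l) (by positivity)
    linarith
  have h2 : l * Real.log (1 + g / l) ≤ g := by
    have h := mul_le_mul_of_nonneg_left h1 hl.le
    rwa [mul_div_cancel₀ g hl.ne'] at h
  have h3 : Real.log (1 + g / l) ≤ Real.log (1 + M / l) :=
    Real.log_le_log (by positivity) (by gcongr)
  have h4 := mul_le_mul_of_nonneg_left h3 hg
  unfold ph
  rw [e1]
  nlinarith

/-- the scalar inequality -/
theorem scal {l a b : ℝ} (hl : 0 < l) (ha : 0 < a) (hb : 0 < b) :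
    (a - b) ^ 2 ≤ ph l (a ^ 2) - ph l (b ^ 2) - Real.log (b ^ 2 / l) * (a ^ 2 - b ^ 2) := by
  have e1 : Real.log (a ^ 2 / l) = Real.log (b ^ 2 / l) + 2 * Real.log (a / b) := by
    have h : a ^ 2 / l = (b ^ 2 / l) * (a / b) ^ 2 := by field_simp
    rw [h, Real.log_mul (by positivity) (by positivity), Real.log_pow]
    norm_num
  have h1 := Real.one_sub_inv_le_log_of_pos (x := a / b) (by positivity)
  have h2 : a ^ 2 * (1 - (a / b)⁻¹) = a ^ 2 - a * b := by field_simp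
  have h3 := mul_le_mul_of_nonneg_left h1 (sq_nonneg a)
  rw [h2] at h3
  unfold ph
  rw [e1]
  nlinarith

/-- the trace of a product in two eigenbases -/
theorem tr_fg (U W : Matrix ι ι ℝ) (f g : ι → ℝ) :
    (U * diagonal f * Uᵀ * (W * diagonal g * Wᵀ)).trace =
      ∑ i, ∑ j, (Uᵀ * W) i j ^ 2 * (f i * g j) := by
  have h1 : (U * diagonal f * Uᵀ * (W * diagonal g * Wᵀ)).trace =
      (diagonal f * ((Uᵀ * W) * diagonal g * (Uᵀ * W)ᵀ)).trace := by
    rw [transpose_mul, transpose_transpose]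
    have : U * diagonal f * Uᵀ * (W * diagonal g * Wᵀ) =
        U * (diagonal f * (Uᵀ * W * diagonal g * Wᵀ)) := by simp only [Matrix.mul_assoc]
    rw [this, trace_mul_comm]
    simp only [Matrix.mul_assoc]
  rw [h1]
  simp only [Matrix.trace, Matrix.diag]
  refine sum_congr rfl fun i _ => ?_
  rw [diagonal_mul, Matrix.mul_apply, mul_sum]
  refine sum_congr rfl fun j _ => ?_
  rw [mul_diagonal, transpose_apply]
  ring

/-- **Klein's inequality** for the square root -/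
theorem klein {l : ℝ} (hl : 0 < l) {U W : Matrix ι ι ℝ} {a b : ι → ℝ}
    (hU1 : Uᵀ * U = 1) (hU2 : U * Uᵀ = 1) (hW1 : Wᵀ * W = 1) (hW2 : W * Wᵀ = 1)
    (ha : ∀ i, 0 < a i) (hb : ∀ i, 0 < b i) {A B : Matrix ι ι ℝ}
    (hA : A = U * diagonal a * Uᵀ) (hB : B = W * diagonal b * Wᵀ) :
    hs2 (A - B) ≤ ∑ i, ph l (a i ^ 2) - ∑ i, ph l (b i ^ 2) -
      ((A * A - B * B) * (W * diagonal (fun j => Real.log (b j ^ 2 / l)) * Wᵀ)).trace := by
  have hAt : Aᵀ = A := by
    rw [hA]; simp [transpose_mul, Matrix.mul_assoc]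
  have hBt : Bᵀ = B := by
    rw [hB]; simp [transpose_mul, Matrix.mul_assoc]
  have hAA : A * A = U * diagonal (fun i => a i ^ 2) * Uᵀ := by
    rw [hA]
    have : U * diagonal a * Uᵀ * (U * diagonal a * Uᵀ) =
        U * (diagonal a * (Uᵀ * U) * diagonal a) * Uᵀ := by simp only [Matrix.mul_assoc]
    rw [this, hU1, Matrix.mul_one, diagonal_mul_diagonal]
    simp only [sq]
  have hBB : B * B = W * diagonal (fun i => b i ^ 2) * Wᵀ := by
    rw [hB]
    have : W * diagonal b * Wᵀ * (W * diagonal b * Wᵀ) =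
        W * (diagonal b * (Wᵀ * W) * diagonal b) * Wᵀ := by simp only [Matrix.mul_assoc]
    rw [this, hW1, Matrix.mul_one, diagonal_mul_diagonal]
    simp only [sq]
  have oneW : W * diagonal (fun _ => (1 : ℝ)) * Wᵀ = 1 := by
    rw [diagonal_one, Matrix.mul_one, hW2]
  have oneU : U * diagonal (fun _ => (1 : ℝ)) * Uᵀ = 1 := by
    rw [diagonal_one, Matrix.mul_one, hU2]
  -- traces as double sums
  have tA2 : (A * A).trace = ∑ i, ∑ j, (Uᵀ * W) i j ^ 2 * (a i ^ 2 * 1) := by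
    rw [← tr_fg U W (fun i => a i ^ 2) (fun _ => 1), oneW, Matrix.mul_one, hAA]
  have tB2 : (B * B).trace = ∑ i, ∑ j, (Uᵀ * W) i j ^ 2 * (1 * b j ^ 2) := by
    rw [← tr_fg U W (fun _ => 1) (fun j => b j ^ 2), oneU, Matrix.one_mul, hBB]
  have tAB : (A * B).trace = ∑ i, ∑ j, (Uᵀ * W) i j ^ 2 * (a i * b j) := by
    rw [← tr_fg U W a b, ← hA, ← hB]
  have trU : ∀ f : ι → ℝ, (U * diagonal f * Uᵀ).trace = ∑ i, f i := by
    intro f
    rw [trace_mul_comm, ← Matrix.mul_assoc, hU1, Matrix.one_mul, trace_diagonal]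
  have trW : ∀ f : ι → ℝ, (W * diagonal f * Wᵀ).trace = ∑ i, f i := by
    intro f
    rw [trace_mul_comm, ← Matrix.mul_assoc, hW1, Matrix.one_mul, trace_diagonal]
  have tPa : ∑ i, ph l (a i ^ 2) = ∑ i, ∑ j, (Uᵀ * W) i j ^ 2 * (ph l (a i ^ 2) * 1) := by
    rw [← tr_fg U W (fun i => ph l (a i ^ 2)) (fun _ => 1), oneW, Matrix.mul_one, trU]
  have tPb : ∑ i, ph l (b i ^ 2) = ∑ i, ∑ j, (Uᵀ * W) i j ^ 2 * (1 * ph l (b j ^ 2)) := by
    rw [← tr_fg U W (fun _ => 1) (fun j => ph l (b j ^ 2)), oneU, Matrix.one_mul, trW]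
  have tL : ((A * A - B * B) * (W * diagonal (fun j => Real.log (b j ^ 2 / l)) * Wᵀ)).trace =
      ∑ i, ∑ j, (Uᵀ * W) i j ^ 2 * (a i ^ 2 * Real.log (b j ^ 2 / l)) -
      ∑ i, ∑ j, (Uᵀ * W) i j ^ 2 * (1 * (b j ^ 2 * Real.log (b j ^ 2 / l))) := by
    rw [Matrix.sub_mul, trace_sub]
    congr 1
    · rw [← tr_fg U W (fun i => a i ^ 2) (fun j => Real.log (b j ^ 2 / l)), hAA]
    · rw [← tr_fg U W (fun _ => 1) (fun j => b j ^ 2 * Real.log (b j ^ 2 / l)), oneU,
        Matrix.one_mul, hBB]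
      have : W * diagonal (fun i => b i ^ 2) * Wᵀ *
          (W * diagonal (fun j => Real.log (b j ^ 2 / l)) * Wᵀ) =
          W * (diagonal (fun i => b i ^ 2) * (Wᵀ * W) *
            diagonal (fun j => Real.log (b j ^ 2 / l))) * Wᵀ := by
        simp only [Matrix.mul_assoc]
      rw [this, hW1, Matrix.mul_one, diagonal_mul_diagonal]
  have hh : hs2 (A - B) = (A * A).trace - 2 * (A * B).trace + (B * B).trace := by
    unfold hs2
    rw [transpose_sub, hAt, hBt, Matrix.sub_mul, Matrix.mul_sub, Matrix.mul_sub, trace_sub,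
      trace_sub, trace_sub, trace_mul_comm B A]
    ring
  rw [hh, tL, tA2, tB2, tAB, tPa, tPb]
  simp only [mul_sum, ← sum_sub_distrib, ← sum_add_distrib]
  refine sum_le_sum fun i _ => sum_le_sum fun j _ => ?_
  have h := mul_le_mul_of_nonneg_left (scal hl (ha i) (hb j)) (sq_nonneg ((Uᵀ * W) i j))
  nlinarith

/-! ### The potential of a matrix -/

/-- `tr ph (K²)` -/
def ent (l : ℝ) (K : Matrix ι ι ℝ) : ℝ :=
  if h : K.IsHermitian then ∑ i, ph l (h.eigenvalues i ^ 2) else 0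

theorem form_col (K U : Matrix ι ι ℝ) (i : ι) :
    (U *ᵥ (Pi.single i (1 : ℝ))) ⬝ᵥ K *ᵥ (U *ᵥ (Pi.single i (1 : ℝ))) = (Uᵀ * K * U) i i := by
  have h : (U *ᵥ (Pi.single i (1 : ℝ))) = U.col i := by
    ext j; simp [Matrix.mulVec, dotProduct, Pi.single_apply, Matrix.col]
  rw [h, Matrix.mul_assoc, Matrix.mul_apply, dotProduct]
  refine sum_congr rfl fun j _ => ?_
  rw [transpose_apply, Matrix.mul_apply]
  rfl

theorem conj_diag {K U : Matrix ι ι ℝ} {d : ι → ℝ}
    (h1 : Uᵀ * U = 1) (h : K = U * diagonal d * Uᵀ) : Uᵀ * K * U = diagonal d := by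
  rw [h]
  have : Uᵀ * (U * diagonal d * Uᵀ) * U = (Uᵀ * U) * diagonal d * (Uᵀ * U) := by
    simp only [Matrix.mul_assoc]
  rw [this, h1, Matrix.one_mul, Matrix.mul_one]

theorem diag_pos {K : Matrix ι ι ℝ} (hK : K.PosDef) {U : Matrix ι ι ℝ} {d : ι → ℝ}
    (h1 : Uᵀ * U = 1) (h : K = U * diagonal d * Uᵀ) (i : ι) : 0 < d i := by
  have h2 := hK.dotProduct_mulVec_pos (x := U *ᵥ (Pi.single i (1 : ℝ))) (col_ne_zero h1 i)
  simp only [star_trivial] at h2
  rw [form_col, conj_diag h1 h, diagonal_apply_eq] at h2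
  exact h2

theorem diag_nonneg {K : Matrix ι ι ℝ} (hK : K.PosSemidef) {U : Matrix ι ι ℝ} {d : ι → ℝ}
    (h1 : Uᵀ * U = 1) (h : K = U * diagonal d * Uᵀ) (i : ι) : 0 ≤ d i := by
  have h2 := hK.dotProduct_mulVec_nonneg (U *ᵥ (Pi.single i (1 : ℝ)))
  simp only [star_trivial] at h2
  rw [form_col, conj_diag h1 h, diagonal_apply_eq] at h2
  exact h2

/-- the canonical eigenbasis -/
theorem diag_of {K : Matrix ι ι ℝ} (hK : K.IsHermitian) :
    ∃ U : Matrix ι ι ℝ, Uᵀ * U = 1 ∧ U * Uᵀ = 1 ∧ K = U * diagonal hK.eigenvalues * Uᵀ := by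
  refine ⟨hK.eigenvectorUnitary, ?_, ?_, ?_⟩
  · have := Unitary.coe_star_mul_self hK.eigenvectorUnitary
    simpa [star_eq_conjTranspose, conjTranspose_eq_transpose_of_trivial] using this
  · have := Unitary.coe_mul_star_self hK.eigenvectorUnitary
    simpa [star_eq_conjTranspose, conjTranspose_eq_transpose_of_trivial] using this
  · have h := hK.spectral_theorem
    rw [Unitary.conjStarAlgAut_apply] at h
    simpa [star_eq_conjTranspose, conjTranspose_eq_transpose_of_trivial, Function.comp_def]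
      using h

theorem sq_diag {K U : Matrix ι ι ℝ} {d : ι → ℝ}
    (h1 : Uᵀ * U = 1) (h : K = U * diagonal d * Uᵀ) :
    K * K = U * diagonal (fun i => d i ^ 2) * Uᵀ := by
  rw [h]
  have : U * diagonal d * Uᵀ * (U * diagonal d * Uᵀ) =
      U * (diagonal d * (Uᵀ * U) * diagonal d) * Uᵀ := by simp only [Matrix.mul_assoc]
  rw [this, h1, Matrix.mul_one, diagonal_mul_diagonal]
  simp only [sq]

theorem ent_nonneg {l : ℝ} (hl : 0 < l) {K : Matrix ι ι ℝ} (hK : K.PosDef) : 0 ≤ ent l K := by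
  unfold ent
  rw [dif_pos hK.isHermitian]
  obtain ⟨U, h1, _, h3⟩ := diag_of hK.isHermitian
  exact sum_nonneg fun i _ => ph_nonneg hl (pow_pos (diag_pos hK h1 h3 i) 2)

/-- the potential at the END -/
theorem ent_le {l M : ℝ} (hl : 0 < l) {G K : Matrix ι ι ℝ} (hK : K.PosDef)
    (hG : G.PosSemidef) (hM : (M • (1 : Matrix ι ι ℝ) - G).PosSemidef)
    (h : K * K = l • (1 : Matrix ι ι ℝ) + G) :
    ent l K ≤ Real.log (1 + M / l) * G.trace := by
  unfold ent
  rw [dif_pos hK.isHermitian]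
  obtain ⟨U, h1, h2, h3⟩ := diag_of hK.isHermitian
  set d := hK.isHermitian.eigenvalues with hd
  have e0 : G = U * diagonal (fun i => d i ^ 2 - l) * Uᵀ := by
    have e1 := sq_diag h1 h3
    have e2 : G = K * K - l • (1 : Matrix ι ι ℝ) := by rw [h]; abel
    have e3 : l • (1 : Matrix ι ι ℝ) = U * diagonal (fun _ => l) * Uᵀ := by
      have : (diagonal (fun _ : ι => l)) = l • (1 : Matrix ι ι ℝ) := by
        rw [smul_one_eq_diagonal]
      rw [this, Matrix.mul_smul, Matrix.smul_mul, Matrix.mul_one, h2]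
    rw [e2, e1, e3, ← Matrix.sub_mul, ← Matrix.mul_sub, diagonal_sub]
  have e4 : M • (1 : Matrix ι ι ℝ) - G = U * diagonal (fun i => M - (d i ^ 2 - l)) * Uᵀ := by
    have e3 : M • (1 : Matrix ι ι ℝ) = U * diagonal (fun _ => M) * Uᵀ := by
      have : (diagonal (fun _ : ι => M)) = M • (1 : Matrix ι ι ℝ) := by
        rw [smul_one_eq_diagonal]
      rw [this, Matrix.mul_smul, Matrix.smul_mul, Matrix.mul_one, h2]
    rw [e3, e0, ← Matrix.sub_mul, ← Matrix.mul_sub, diagonal_sub]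
  have g0 := fun i => diag_nonneg hG h1 e0 i
  have g1 := fun i => diag_nonneg hM h1 e4 i
  have htr : G.trace = ∑ i, (d i ^ 2 - l) := by
    rw [e0, trace_mul_comm, ← Matrix.mul_assoc, h1, Matrix.one_mul, trace_diagonal]
  rw [htr, mul_sum]
  refine sum_le_sum fun i _ => ?_
  have h5 := ph_le (M := M) hl (g0 i) (by have := g1 i; linarith)
  have h6 : l + (d i ^ 2 - l) = d i ^ 2 := by ring
  rw [h6] at h5
  rw [mul_comm]
  exact h5

/-- the linear part: a matrix `L` with `|A - K|² ≤ ent A - ent K - tr ((A² - K²) L)` -/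
theorem exists_lin {l : ℝ} (hl : 0 < l) {K : Matrix ι ι ℝ} (hK : K.PosDef) :
    ∃ L : Matrix ι ι ℝ, ∀ A : Matrix ι ι ℝ, A.PosDef →
      hs2 (A - K) ≤ ent l A - ent l K - ((A * A - K * K) * L).trace := by
  obtain ⟨W, w1, w2, w3⟩ := diag_of hK.isHermitian
  refine ⟨W * diagonal (fun j => Real.log (hK.isHermitian.eigenvalues j ^ 2 / l)) * Wᵀ,
    fun A hA => ?_⟩
  obtain ⟨U, u1, u2, u3⟩ := diag_of hA.isHermitian
  have h := klein hl u1 u2 w1 w2 (diag_pos hA u1 u3) (diag_pos hK w1 w3) u3 w3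
  unfold ent
  rw [dif_pos hA.isHermitian, dif_pos hK.isHermitian]
  exact h

/-- one node -/
theorem dK_node {l : ℝ} (hl : 0 < l) {K Kp Km : Matrix ι ι ℝ} (hK : K.PosDef)
    (hp : Kp.PosDef) (hm : Km.PosDef)
    (h : K * K = (1 / 2 : ℝ) • (Kp * Kp + Km * Km)) :
    (1 / 2) * (hs2 (Kp - K) + hs2 (Km - K)) ≤
      (1 / 2) * (ent l Kp + ent l Km) - ent l K := by
  obtain ⟨L, hL⟩ := exists_lin hl hK
  have h1 := hL Kp hp
  have h2 := hL Km hm
  have h3 : ((Kp * Kp - K * K) * L).trace + ((Km * Km - K * K) * L).trace = 0 := by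
    rw [← trace_add, ← Matrix.add_mul]
    have : Kp * Kp - K * K + (Km * Km - K * K) = 0 := by
      have e : Kp * Kp + Km * Km = (2 : ℝ) • (K * K) := by
        rw [h, smul_smul]; norm_num
      have e2 : Kp * Kp - K * K + (Km * Km - K * K) =
          (Kp * Kp + Km * Km) - (K * K + K * K) := by abel
      rw [e2, e, two_smul, sub_self]
    rw [this, Matrix.zero_mul, trace_zero]
  linarith

theorem tmean_trace {l : ℝ} {n : ℕ} {G K : ℕ → ℤ → Matrix ι ι ℝ} (h : Tr l n G K) :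
    ∀ k ≤ n, ∀ m, tmean (fun i => (G 0 i).trace) k m = (G k m).trace := by
  intro k
  induction k with
  | zero => intro _ m; rfl
  | succ k ih =>
    intro hk m
    rw [tmean, ih (by omega), ih (by omega), h.mean k (by omega) m, trace_smul, trace_add,
      smul_eq_mul]

/-- **the energy of `K` on the tree** -/
theorem dK_tree {l M : ℝ} {n : ℕ} {G K : ℕ → ℤ → Matrix ι ι ℝ} (h : H420.Tr l n G K)
    (hM : ∀ i, (M • (1 : Matrix ι ι ℝ) - G 0 i).PosSemidef) {k : ℕ} (hk : k ≤ n) (m : ℤ) :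
    H420.tsum (fun j i => (1 / 2) * (hs2 (K (j - 1) (2 * i) - K j i) +
      hs2 (K (j - 1) (2 * i + 1) - K j i))) k m ≤ Real.log (1 + M / l) * (G k m).trace := by
  have hl := h.l_pos
  have key := tsum_le_mean (f := fun j i => (1 / 2) * (hs2 (K (j - 1) (2 * i) - K j i) +
      hs2 (K (j - 1) (2 * i + 1) - K j i))) (F := fun j i => ent l (K j i)) (n := n)
      (fun j hj i => ?_) k hk m
  · have h1 : tmean (fun i => ent l (K 0 i)) k m ≤
        tmean (fun i => Real.log (1 + M / l) * (G 0 i).trace) k m :=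
      tmean_mono (fun i => ent_le hl (h.pdK 0 i) (h.psG 0 i) (hM i) (h.sq 0 i)) k m
    rw [tmean_mul, tmean_trace h k hk m] at h1
    have h2 := ent_nonneg hl (h.pdK k m)
    linarith
  · simp only [Nat.add_sub_cancel]
    have e : K (j + 1) i * K (j + 1) i = (1 / 2 : ℝ) • (K j (2 * i) * K j (2 * i) +
        K j (2 * i + 1) * K j (2 * i + 1)) := by
      rw [h.sq, h.sq, h.sq, h.mean j hj i]
      have h2 : (1 / 2 : ℝ) • (l • (1 : Matrix ι ι ℝ) + l • (1 : Matrix ι ι ℝ)) =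
          l • (1 : Matrix ι ι ℝ) := by
        rw [← two_smul ℝ, smul_smul]; norm_num
      rw [add_add_add_comm, smul_add (1 / 2 : ℝ) (l • (1 : Matrix ι ι ℝ) +
        l • (1 : Matrix ι ι ℝ)), h2]
    exact dK_node hl (h.pdK _ _) (h.pdK _ _) (h.pdK _ _) e

end

end Vale.Agent.P141.H771
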