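import Vale.Agent.P141.H771.VarB

/-!
# P141, line (A), TF: the number `ZV` of the pair `(B, C~)` in the letters of `VarB`

* `ix_add_bd`, `tie_pts` : the tied cell of `x3` of the shifted grid is within `J` of the plane of
  the points `x0`, `x1`, `x2`;
* `row_two` : rows of a cut family against a matrix which takes two values on the cell;
* `pts_le` : the sum over the points of the shifted grid against the sum over the points and the
  tied cells.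
-/

namespace Vale.Agent.P141.H771

open Finset Matrix
open Vale.Agent.P141.PL (iv ix mem_iv card_iv ix_ix)
open Vale.Agent.P141.H43 (nsq nsq_nonneg)
open Vale.Agent.P141.H841 (ix_bd ix_of)
open Vale.Agent.P141.H784 (Tie)

noncomputable section

theorem ix_add_bd (a : ℕ) (x y : ℤ) : ix a x + ix a y ≤ ix a (x + y) ∧
    ix a (x + y) ≤ ix a x + ix a y + 1 := by
  obtain ⟨h1, h2⟩ := ix_bd a x
  obtain ⟨h3, h4⟩ := ix_bd a y
  obtain ⟨h5, h6⟩ := ix_bd a (x + y)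
  have hP : (0 : ℤ) < 2 ^ a := by positivity
  constructor
  · have h7 : (2 : ℤ) ^ a * (ix a x + ix a y) < 2 ^ a * (ix a (x + y) + 1) := by
      rw [mul_add, mul_add, mul_one]; linarith
    have := lt_of_mul_lt_mul_left h7 hP.le
    omega
  · have h7 : (2 : ℤ) ^ a * ix a (x + y) < 2 ^ a * (ix a x + ix a y + 2) := by
      have : (2 : ℤ) ^ a * (ix a x + ix a y + 2) = 2 ^ a * ix a x + 2 ^ a * ix a y +
        2 * 2 ^ a := by ring
      rw [this]; linarith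
    have := lt_of_mul_lt_mul_left h7 hP.le
    omega

theorem ix_mono (a : ℕ) {x y : ℤ} (h : x ≤ y) : ix a x ≤ ix a y := by
  unfold PL.ix
  exact Int.ediv_le_ediv (by positivity) h

/-- **the tied cell** : `c = ix a (3 - x0 - s1 - s2 - s3) - j` is the plane of the shifted grid -/
theorem tie_pts {a : ℕ} {o x0 s1 s2 s3 j x y m : ℤ} (ho : o = 1 ∨ o = -1) (hj : 0 ≤ j ∧ j ≤ 2)
    (hm : |m - (ix a (-x0 + 3 - s1 - s2 - s3) - j - ix a x - ix a y)| ≤ 1) :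
    Tie a 12 (o - 2) x0 (x + s1) (y + s2) (m + ix a s3) := by
  unfold H784.Tie
  have e1 := ix_add_bd a x s1
  have e2 := ix_add_bd a y s2
  have e3 := ix_add_bd a (-x0 + 3 - s1 - s2 - s3) (x0 + s1 + s2 + s3)
  have e4 : -x0 + 3 - s1 - s2 - s3 + (x0 + s1 + s2 + s3) = 3 := by ring
  rw [e4] at e3
  have e5 := ix_add_bd a (x0 + s1 + s2) s3
  have e6 := ix_add_bd a (x0 + s1) s2
  have e7 := ix_add_bd a x0 s1
  have e8 : 0 ≤ ix a 3 := by unfold PL.ix; positivity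
  have e9 : ix a 3 ≤ 3 := by
    have h1 : ix a 3 ≤ 3 / 2 ^ a := le_rfl
    exact h1.trans (Int.ediv_le_self _ (by norm_num))
  rw [abs_le] at hm ⊢
  rcases ho with rfl | rfl <;> push_cast <;> constructor <;> omega

variable {ι : Type*} [Fintype ι] [DecidableEq ι]

theorem nsq_mulVec (M : Matrix ι ι ℝ) (v : ι → ℝ) : nsq (M *ᵥ v) = ∑ i, (v ⬝ᵥ M i) ^ 2 := by
  rw [H841.nsq_eq]
  refine sum_congr rfl fun i _ => ?_
  rw [mulVec, dotProduct_comm]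

/-- **rows of the cut family** : the matrix takes the values `D (μ y)`, `μ` moves by at most one
on the cells of scale `k` -/
theorem row_two {K k : ℕ} (hk : k ≤ K) (M2 : ℤ) {D : ℤ → Matrix ι ι ℝ} {b B : ℤ → ι → ℝ}
    (hrow : ∀ p, ∀ w : ι → ℝ, ∑ y ∈ iv k p, (b y ⬝ᵥ w) ^ 2 ≤ ∑ y ∈ iv k p, (B y ⬝ᵥ w) ^ 2)
    {μ : ℤ → ℤ} (hμ : ∀ y y', ix k y = ix k y' → |μ y - μ y'| ≤ 1) (Ms : Finset ℤ)
    (hMs : ∀ y ∈ iv K M2, μ y ∈ Ms) :
    ∑ y ∈ iv K M2, nsq (D (μ y) *ᵥ b y) ≤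
      ∑ y ∈ iv K M2, ∑ m ∈ Ms.filter (fun m => |m - μ y| ≤ 1), nsq (D m *ᵥ B y) := by
  rw [sum_cells hk, sum_cells hk]
  refine sum_le_sum fun p hp => ?_
  have hin : ∀ y ∈ iv k p, y ∈ iv K M2 := by
    intro y hy
    rw [mem_iv] at hp hy ⊢
    rw [← hp, ← hy, ix_ix, Nat.add_sub_cancel' hk]
  set V := (iv k p).image μ with hV
  have h1 : ∑ y ∈ iv k p, nsq (D (μ y) *ᵥ b y) ≤ ∑ y ∈ iv k p, ∑ m ∈ V, nsq (D m *ᵥ b y) :=
    sum_le_sum fun y hy => single_le_sum (f := fun m => nsq (D m *ᵥ b y))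
      (fun m _ => nsq_nonneg _) (mem_image_of_mem μ hy)
  refine h1.trans ?_
  rw [sum_comm]
  have h2 : ∀ m ∈ V, ∑ y ∈ iv k p, nsq (D m *ᵥ b y) ≤ ∑ y ∈ iv k p, nsq (D m *ᵥ B y) := by
    intro m _
    simp only [nsq_mulVec]
    rw [sum_comm, sum_comm (s := iv k p)]
    exact sum_le_sum fun i _ => hrow p (D m i)
  refine (sum_le_sum h2).trans ?_
  rw [sum_comm]
  refine sum_le_sum fun y hy => ?_
  refine sum_le_sum_of_subset_of_nonneg (fun m hm => ?_) fun m _ _ => nsq_nonneg _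
  rw [hV, mem_image] at hm
  obtain ⟨y', hy', rfl⟩ := hm
  rw [mem_filter]
  refine ⟨hMs y' (hin y' hy'), ?_⟩
  rw [mem_iv] at hy hy'
  exact hμ y' y (by rw [hy, hy'])

/-- the cell of the shifted grid moves by at most one on a cell of scale `k` -/
theorem mu_one {k : ℕ} (s2 c : ℤ) (y y' : ℤ) (h : ix k y = ix k y') :
    |(c - ix (k + 1) (y - s2)) - (c - ix (k + 1) (y' - s2))| ≤ 1 := by
  obtain ⟨h1, h2⟩ := ix_bd k y
  obtain ⟨h3, h4⟩ := ix_bd k y'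
  rw [h] at h1 h2
  obtain ⟨g1, g2⟩ := ix_bd (k + 1) (y - s2)
  obtain ⟨g3, g4⟩ := ix_bd (k + 1) (y' - s2)
  have hP : (0 : ℤ) < 2 ^ (k + 1) := by positivity
  have e : (2 : ℤ) ^ (k + 1) = 2 * 2 ^ k := by rw [pow_succ]; ring
  have hk : (0 : ℤ) < 2 ^ k := by positivity
  have u1 : (2 : ℤ) ^ (k + 1) * (ix (k + 1) (y - s2) - ix (k + 1) (y' - s2)) <
      2 ^ (k + 1) * 2 := by
    rw [mul_sub]; linarith
  have u2 : (2 : ℤ) ^ (k + 1) * (-2) <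
      2 ^ (k + 1) * (ix (k + 1) (y - s2) - ix (k + 1) (y' - s2)) := by
    rw [mul_sub]; linarith
  have v1 := lt_of_mul_lt_mul_left u1 hP.le
  have v2 := lt_of_mul_lt_mul_left u2 hP.le
  rw [abs_le]
  constructor <;> omega

/-- shift of a sum over the points of a root, the function lives in the root `M` -/
theorem sum_shift_root {K : ℕ} (S M s1 : ℤ) {g : ℤ → ℝ} (hg : ∀ x, 0 ≤ g x) :
    ∑ x ∈ iv K S, (if x + s1 ∈ iv K M then g (x + s1) else 0) ≤ ∑ x ∈ iv K M, g x := by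
  rw [← sum_filter]
  have h1 : ∑ x ∈ (iv K S).filter (fun x => x + s1 ∈ iv K M), g (x + s1) =
      ∑ x ∈ ((iv K S).filter (fun x => x + s1 ∈ iv K M)).image (fun x => x + s1), g x := by
    rw [sum_image]
    intro a _ b _ hab
    exact add_right_cancel hab
  rw [h1]
  refine sum_le_sum_of_subset_of_nonneg (fun x hx => ?_) fun x _ _ => hg x
  rw [mem_image] at hx
  obtain ⟨y, hy, rfl⟩ := hx
  exact (mem_filter.1 hy).2

/-- all the cells of `x3` tied to some point of the roots -/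
def Mz (K : ℕ) (o t M1 M2 s3 : ℤ) (a : ℕ) : Finset ℤ :=
  (iv K t).biUnion fun x0 => (iv K M1).biUnion fun x1 => (iv K M2).biUnion fun x2 =>
    Icc (o - 2 - ix a x0 - ix a x1 - ix a x2 - ix a s3 - 12)
      (o - 2 - ix a x0 - ix a x1 - ix a x2 - ix a s3 + 12)

theorem mem_Mz {K : ℕ} {o t M1 M2 s3 x0 x1 x2 m : ℤ} {a : ℕ} (h0 : x0 ∈ iv K t)
    (h1 : x1 ∈ iv K M1) (h2 : x2 ∈ iv K M2) (h : Tie a 12 (o - 2) x0 x1 x2 (m + ix a s3)) :
    m ∈ Mz K o t M1 M2 s3 a := by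
  unfold Mz
  simp only [mem_biUnion]
  refine ⟨x0, h0, x1, h1, x2, h2, ?_⟩
  unfold H784.Tie at h
  rw [abs_le] at h
  rw [mem_Icc]
  push_cast at h
  omega

/-- **the number `ZV` at one `x0`, one `x1`, one time** -/
theorem pts_x1 {K k : ℕ} (hk : k < K) {o x0 t M1 M2 s1 s2 s3 j x1 : ℤ} (ho : o = 1 ∨ o = -1)
    (hj : 0 ≤ j ∧ j ≤ 2) (hx0 : x0 ∈ iv K t) (hx1 : x1 ∈ iv K M1) {D : ℤ → Matrix ι ι ℝ}
    {b B : ℤ → ι → ℝ}
    (hrow : ∀ p, ∀ w : ι → ℝ, ∑ y ∈ iv k p, (b y ⬝ᵥ w) ^ 2 ≤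
      ∑ y ∈ iv k p, (B y ⬝ᵥ w) ^ 2) :
    ∑ x2 ∈ iv K M2, nsq (D (ix (k + 1) (-x0 + 3 - s1 - s2 - s3) - j - ix (k + 1) (x1 - s1) -
      ix (k + 1) (x2 - s2)) *ᵥ b x2) ≤
    ∑ x2 ∈ iv K M2, ∑ m ∈ (Mz K o t M1 M2 s3 (k + 1)).filter (fun m =>
        Tie (k + 1) 12 (o - 2) x0 x1 x2 (m + ix (k + 1) s3)), nsq (D m *ᵥ B x2) := by
  obtain ⟨c, hc⟩ : ∃ c, c = ix (k + 1) (-x0 + 3 - s1 - s2 - s3) - j - ix (k + 1) (x1 - s1) :=
    ⟨_, rfl⟩
  rw [← hc]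
  have tie : ∀ x2 m : ℤ, |m - (c - ix (k + 1) (x2 - s2))| ≤ 1 →
      Tie (k + 1) 12 (o - 2) x0 x1 x2 (m + ix (k + 1) s3) := by
    intro x2 m hm
    have h2 := tie_pts (a := k + 1) (o := o) (x0 := x0) (s1 := s1) (s2 := s2) (s3 := s3) (j := j)
      (x := x1 - s1) (y := x2 - s2) (m := m) ho hj (by rw [← hc]; exact hm)
    rwa [sub_add_cancel, sub_add_cancel] at h2
  refine (row_two hk.le M2 (D := D) hrow (μ := fun x2 => c - ix (k + 1) (x2 - s2))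
    (fun y y' h => mu_one s2 c y y' h)
    (Mz K o t M1 M2 s3 (k + 1)) (fun x2 hx2 => mem_Mz hx0 hx1 hx2 (tie x2 _ (by
      rw [sub_self, abs_zero]; exact zero_le_one)))).trans ?_
  refine sum_le_sum fun x2 _ => ?_
  refine sum_le_sum_of_subset_of_nonneg (fun m hm => ?_) fun _ _ _ => nsq_nonneg _
  rw [mem_filter] at hm ⊢
  exact ⟨hm.1, tie x2 m hm.2⟩

/-- shift of the two variables -/
theorem root_two {K : ℕ} (S Y M1 M2 s1 s2 : ℤ) {g : ℤ → ℤ → ℝ} (hg : ∀ x y, 0 ≤ g x y) :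
    ∑ x ∈ iv K S, ∑ y ∈ iv K Y, (if x + s1 ∈ iv K M1 ∧ y + s2 ∈ iv K M2 then
      g (x + s1) (y + s2) else 0) ≤ ∑ x ∈ iv K M1, ∑ y ∈ iv K M2, g x y := by
  have h1 : ∀ x ∈ iv K S, ∑ y ∈ iv K Y, (if x + s1 ∈ iv K M1 ∧ y + s2 ∈ iv K M2 then
      g (x + s1) (y + s2) else 0) ≤
      if x + s1 ∈ iv K M1 then ∑ y ∈ iv K M2, g (x + s1) y else 0 := by
    intro x _
    by_cases hx : x + s1 ∈ iv K M1
    · have h2 := sum_shift_root (K := K) Y M2 s2 (g := g (x + s1)) (hg (x + s1))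
      rw [if_pos hx]
      refine le_trans (le_of_eq (sum_congr rfl fun y _ => ?_)) h2
      simp only [hx, true_and]
    · rw [if_neg hx]
      refine le_of_eq (sum_eq_zero fun y _ => ?_)
      simp only [hx, false_and, if_false]
  refine (sum_le_sum h1).trans ?_
  exact sum_shift_root (K := K) S M1 s1 (g := fun x1 => ∑ y ∈ iv K M2, g x1 y)
    (fun x1 => sum_nonneg fun y _ => hg x1 y)

/-- **the number `ZV` at one `x0`, one time.** `b` is the cut family, `B` the killed one, at the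
time `k`; `D x1 m` the half difference at the cell `m` of scale `k + 1`. -/
theorem pts_le {K k : ℕ} (hk : k < K) {o x0 t M1 M2 s1 s2 s3 j : ℤ} (ho : o = 1 ∨ o = -1)
    (hj : 0 ≤ j ∧ j ≤ 2) (hx0 : x0 ∈ iv K t) (S Y : ℤ) {D : ℤ → ℤ → Matrix ι ι ℝ}
    {b B : ℤ → ℤ → ι → ℝ}
    (hrow : ∀ x1 p, ∀ w : ι → ℝ, ∑ y ∈ iv k p, (b x1 y ⬝ᵥ w) ^ 2 ≤
      ∑ y ∈ iv k p, (B x1 y ⬝ᵥ w) ^ 2) :
    ∑ x ∈ iv K S, ∑ y ∈ iv K Y, (if x + s1 ∈ iv K M1 ∧ y + s2 ∈ iv K M2 then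
      nsq (D (x + s1) (ix (k + 1) (-x0 + 3 - s1 - s2 - s3) - j - ix (k + 1) x - ix (k + 1) y) *ᵥ
        b (x + s1) (y + s2)) else 0) ≤
    ∑ x1 ∈ iv K M1, ∑ x2 ∈ iv K M2,
      ∑ m ∈ (Mz K o t M1 M2 s3 (k + 1)).filter (fun m =>
        Tie (k + 1) 12 (o - 2) x0 x1 x2 (m + ix (k + 1) s3)), nsq (D x1 m *ᵥ B x1 x2) := by
  have h1 := root_two (K := K) S Y M1 M2 s1 s2 (g := fun x1 x2 =>
    nsq (D x1 (ix (k + 1) (-x0 + 3 - s1 - s2 - s3) - j - ix (k + 1) (x1 - s1) -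
      ix (k + 1) (x2 - s2)) *ᵥ b x1 x2)) (fun _ _ => nsq_nonneg _)
  simp only [add_sub_cancel_right] at h1
  exact h1.trans (sum_le_sum fun x1 hx1 => pts_x1 hk ho hj hx0 hx1 (hrow x1))

end

end Vale.Agent.P141.H771
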